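import Mathlib
import Vale.Agent.P110.Full.Defs

/-!
Shared definitions for the construction of a transformation with simple Lebesgue spectrum (P130).
-/

noncomputable section

namespace Vale.Agent.P130.Full

open MeasureTheory
open Vale.Agent.P110.Full (ch)

/-- The column polynomial of offsets `a` at frequencies `ψ` (offset) and `u` (column index). -/
def column {m : ℕ} (a : Fin m → ℕ) (ψ u : ℝ) : ℂ :=
  ∑ j : Fin m, ch (ψ * a j + (j : ℕ) * u)

/-- Cutting and stacking data: at stage `n` the tower is cut into `m n` columns, column `j` gets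
`a n j` spacers below and `A n - a n j` above, and the columns are stacked. -/
structure Stack where
  m : ℕ → ℕ
  A : ℕ → ℕ
  a : (n : ℕ) → Fin (m n) → ℕ
  two_le : ∀ n, 2 ≤ m n
  a_le : ∀ n j, a n j ≤ A n

/-- The height of tower `n`. -/
def Stack.height (S : Stack) : ℕ → ℕ
  | 0 => 1
  | n + 1 => S.m n * (S.height n + S.A n)

/-- The level of tower `n + 1` where column `j` of tower `n` starts. -/
def Stack.pos (S : Stack) (n : ℕ) (j : Fin (S.m n)) : ℕ :=
  (j : ℕ) * (S.height n + S.A n) + S.a n j

/-- The normalised polynomial of stage `n`. -/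
def Stack.poly (S : Stack) (n : ℕ) (t : ℝ) : ℂ :=
  (∑ j, ch (S.pos n j * t)) / (Real.sqrt (S.m n) : ℂ)

/-- The product of the polynomials of the stages `k ≤ i < n`. -/
def Stack.prod (S : Stack) (k n : ℕ) (t : ℝ) : ℂ :=
  ∏ i ∈ Finset.Ico k n, S.poly i t

/-- The spacers have finite total measure. -/
def Stack.FiniteSpace (S : Stack) : Prop :=
  Summable fun n => (S.A n : ℝ) / S.height n

/-- Away from `0` the new polynomial is flat, also against all products of the previous ones. -/
def Stack.Flat (S : Stack) : Prop :=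
  ∀ δ > (0 : ℝ), ∃ n₀ : ℕ, ∀ n ≥ n₀, ∀ k ≤ n,
    ∫ t in δ..(1 - δ), ‖S.prod k n t‖ ^ 2 * (‖S.poly n t‖ - 1) ^ 2 ≤ (1 / 4 : ℝ) ^ n

/-- A rank-one system for the stacking data: `level n i` is the set `T ^ i` of the base of tower
`n`. -/
structure Realisation (S : Stack) where
  X : Type
  measurableSpace : MeasurableSpace X
  standard : StandardBorelSpace X
  μ : Measure X
  prob : IsProbabilityMeasure μ
  noAtoms : NullSingletonClass μ
  T : X ≃ᵐ X
  preserving : MeasurePreserving T μ μ
  level : ℕ → ℕ → Set X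
  measurable_level : ∀ n i, MeasurableSet (level n i)
  level_succ : ∀ n i, i + 1 < S.height n → T ⁻¹' level n (i + 1) =ᵐ[μ] level n i
  disjoint : ∀ n i i', i < S.height n → i' < S.height n → i ≠ i' →
    μ (level n i ∩ level n i') = 0
  refine' : ∀ n i, i < S.height n →
    level n i =ᵐ[μ] ⋃ j : Fin (S.m n), level (n + 1) (S.pos n j + i)
  exhausts : Filter.Tendsto (fun n => (S.height n : ℝ) * (μ (level n 0)).toReal) Filter.atTop
    (nhds 1)
  generates : ∀ g : X → ℂ, MemLp g 2 μ →
    (∀ n i, i < S.height n → ∫ x in level n i, g x ∂μ = 0) → g =ᵐ[μ] 0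

end Vale.Agent.P130.Full
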