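import Mathlib
import Vale.Agent.P130.Full.Defs

/-!
The statements proved by the modules of the construction.
-/

noncomputable section

namespace Vale.Agent.P130.Full

open MeasureTheory
open Vale.Agent.P110.Full (ch)
open scoped ComplexConjugate

/-- The question: some invertible probability-preserving transformation of a standard nonatomic
space has simple Lebesgue spectrum, that is, the orbit of some mean-zero function is an
orthonormal basis of the mean-zero functions. -/
def SimpleLebesgueStatement : Prop :=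
  ∃ (X : Type) (_ : MeasurableSpace X) (_ : StandardBorelSpace X) (μ : Measure X),
    IsProbabilityMeasure μ ∧ (∀ x : X, μ {x} = 0) ∧
    ∃ (T : X ≃ᵐ X) (f : X → ℂ), MeasurePreserving T μ μ ∧ MemLp f 2 μ ∧ ∫ x, f x ∂μ = 0 ∧
      (∀ n : ℤ, ∫ x, f ((T.toEquiv ^ n : Equiv.Perm X) x) * conj (f x) ∂μ =
        if n = 0 then 1 else 0) ∧
      ∀ g : X → ℂ, MemLp g 2 μ → ∫ x, g x ∂μ = 0 →
        (∀ n : ℤ, ∫ x, g x * conj (f ((T.toEquiv ^ n : Equiv.Perm X) x)) ∂μ = 0) → g =ᵐ[μ] 0

/-- Core: offsets of bounded size, uniformly in the number of columns, whose column polynomial is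
flat on average over any weighting of offset frequencies away from `0`. -/
def FlatFamilyStatement : Prop :=
  ∀ ε > (0 : ℝ), ∃ A : ℕ, ∀ m₀ : ℕ, ∃ m ≥ m₀, ∀ (L : ℕ) (ψ w : Fin L → ℝ),
    (∀ l, ψ l ∈ Set.Icc ε (1 - ε)) → (∀ l, 0 ≤ w l) →
    ∃ a : Fin m → ℕ, (∀ j, a j ≤ A) ∧
      ∑ l, w l * ∫ u in (0 : ℝ)..1, (‖column a (ψ l) u‖ / Real.sqrt m - 1) ^ 2 ≤ ε * ∑ l, w l

/-- Module Riesz: a flat family gives flat stacking data of finite measure. -/
def RieszStatement : Prop :=
  FlatFamilyStatement → ∃ S : Stack, S.FiniteSpace ∧ S.Flat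

/-- Module Model: cutting and stacking. -/
def ModelStatement : Prop := ∀ S : Stack, S.FiniteSpace → Nonempty (Realisation S)

/-- Module Spectral: flat stacking data gives simple Lebesgue spectrum. -/
def SpectralStatement : Prop :=
  ∀ S : Stack, S.Flat → Nonempty (Realisation S) → SimpleLebesgueStatement

/-- First half of Spectral, no dynamics: away from `0` the squared products converge to densities
`D k`, positive almost everywhere, and what is lost sits at `0`. -/
def DensityStatement : Prop :=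
  ∀ S : Stack, S.Flat → ∃ (D : ℕ → ℝ → ℝ) (C : ℕ → ℝ),
    (∀ k, IntervalIntegrable (D k) volume 0 1) ∧ (∀ k t, 0 ≤ D k t) ∧
    (∀ k, ∀ᵐ t ∂volume.restrict (Set.Icc (0 : ℝ) 1), 0 < D k t) ∧
    (∀ k l, k ≤ l →
      ∀ᵐ t ∂volume.restrict (Set.Icc (0 : ℝ) 1), D k t = ‖S.prod k l t‖ ^ 2 * D l t) ∧
    ∀ (k : ℕ) (q : ℤ), Filter.Tendsto
      (fun n => ∫ t in (0 : ℝ)..1, ((‖S.prod k n t‖ ^ 2 : ℝ) : ℂ) * ch (q * t)) Filter.atTop
      (nhds ((∫ t in (0 : ℝ)..1, (D k t : ℂ) * ch (q * t)) + (C k : ℂ)))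

theorem simpleLebesgue_of (hC : FlatFamilyStatement) (hR : RieszStatement) (hM : ModelStatement)
    (hS : SpectralStatement) : SimpleLebesgueStatement :=
  let ⟨S, hfin, hflat⟩ := hR hC
  hS S hflat (hM S hfin)

end Vale.Agent.P130.Full
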