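import Mathlib
import Vale.Agent.P130.Full.Statements
import Vale.Agent.P130.Full.Riesz.Basic

/-!
Module Density: flat stacking data have square-root densities converging in mean square away
from `0`, positive almost everywhere, and their trigonometric moments differ from those of the
density by a constant.
-/

noncomputable section

namespace Vale.Agent.P130.Full

open MeasureTheory Filter Topology
open Vale.Agent.P110.Full (ch)

/-- The window `[δ, 1 - δ]`. -/
def win (δ : ℝ) : Measure ℝ := volume.restrict (Set.Icc δ (1 - δ))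

/-- Lebesgue measure on `[0, 1]`. -/
def unit01 : Measure ℝ := volume.restrict (Set.Icc (0 : ℝ) 1)

instance isFinite_win (δ : ℝ) : IsFiniteMeasure (win δ) :=
  isFiniteMeasure_restrict.2 (measure_Icc_lt_top.ne)

instance isFinite_unit01 : IsFiniteMeasure unit01 :=
  isFiniteMeasure_restrict.2 (measure_Icc_lt_top.ne)

theorem integrable_win {f : ℝ → ℝ} (hf : Continuous f) (δ : ℝ) : Integrable f (win δ) :=
  hf.integrableOn_Icc

theorem integrable_unit01 {f : ℝ → ℝ} (hf : Continuous f) : Integrable f unit01 :=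
  hf.integrableOn_Icc

theorem win_le {δ : ℝ} (hδ : 0 ≤ δ) : win δ ≤ unit01 :=
  Measure.restrict_mono (Set.Icc_subset_Icc hδ (by linarith)) le_rfl

theorem integral_unit01 {E : Type*} [NormedAddCommGroup E] [NormedSpace ℝ E] (f : ℝ → E) :
    ∫ t, f t ∂unit01 = ∫ t in (0 : ℝ)..1, f t := by
  rw [intervalIntegral.integral_of_le zero_le_one, unit01]
  exact integral_Icc_eq_integral_Ioc

theorem ae_unit01 {p : ℝ → Prop} (h : ∀ δ, 0 < δ → ∀ᵐ t ∂win δ, p t) :
    ∀ᵐ t ∂unit01, p t := by
  have hU : Set.Ioo (0 : ℝ) 1 ⊆ ⋃ m : ℕ, Set.Icc (1 / ((m : ℝ) + 1)) (1 - 1 / ((m : ℝ) + 1)) := by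
    intro t ht
    obtain ⟨m, hm⟩ := exists_nat_one_div_lt (lt_min ht.1 (by linarith [ht.2] : (0 : ℝ) < 1 - t))
    have := min_le_left t (1 - t)
    have := min_le_right t (1 - t)
    exact Set.mem_iUnion.2 ⟨m, by constructor <;> linarith⟩
  rw [unit01, ← Measure.restrict_congr_set Ioo_ae_eq_Icc]
  refine ae_restrict_of_ae_restrict_of_subset hU ?_
  rw [ae_restrict_iUnion_eq, eventually_iSup]
  exact fun m => h _ Nat.one_div_pos_of_nat

/-- Fatou, in the form used here. -/
theorem integrable_of_tendsto {α : Type*} [MeasurableSpace α] {μ : Measure α} {f : ℕ → α → ℝ}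
    {g : α → ℝ} {B : ℝ} (hB : 0 ≤ B) (hf : ∀ n, Integrable (f n) μ) (hf0 : ∀ n t, 0 ≤ f n t)
    (hb : ∀ᶠ n in atTop, ∫ t, f n t ∂μ ≤ B)
    (hlim : ∀ᵐ t ∂μ, Tendsto (fun n => f n t) atTop (𝓝 (g t))) :
    Integrable g μ ∧ ∫ t, g t ∂μ ≤ B := by
  have hgm : AEStronglyMeasurable g μ :=
    aestronglyMeasurable_of_tendsto_ae atTop (fun n => (hf n).1) hlim
  have hg0 : 0 ≤ᵐ[μ] g := by
    filter_upwards [hlim] with t ht using ge_of_tendsto' ht fun n => hf0 n t
  have hl : ∫⁻ t, ENNReal.ofReal (g t) ∂μ ≤ ENNReal.ofReal B := by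
    calc ∫⁻ t, ENNReal.ofReal (g t) ∂μ
        = ∫⁻ t, liminf (fun n => ENNReal.ofReal (f n t)) atTop ∂μ := by
          refine lintegral_congr_ae ?_
          filter_upwards [hlim] with t ht
          exact (ENNReal.tendsto_ofReal ht).liminf_eq.symm
      _ ≤ liminf (fun n => ∫⁻ t, ENNReal.ofReal (f n t) ∂μ) atTop :=
          lintegral_liminf_le' fun n => ((hf n).1.aemeasurable).ennreal_ofReal
      _ ≤ ENNReal.ofReal B := by
          refine liminf_le_of_frequently_le' (hb.frequently.mono fun n hn => ?_)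
          rw [← ofReal_integral_eq_lintegral_ofReal (hf n) (Eventually.of_forall (hf0 n))]
          exact ENNReal.ofReal_le_ofReal hn
  refine ⟨⟨hgm, (hasFiniteIntegral_iff_ofReal hg0).2 (hl.trans_lt ENNReal.ofReal_lt_top)⟩, ?_⟩
  rw [integral_eq_lintegral_of_nonneg_ae hg0 hgm]
  exact ENNReal.toReal_le_of_le_ofReal hB hl

namespace Stack

variable (S : Stack)

/-- The modulus of a product of stage polynomials. -/
def absProd (k n : ℕ) (t : ℝ) : ℝ := ‖S.prod k n t‖

/-- Its limit in `n`. -/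
def rootDens (k : ℕ) (t : ℝ) : ℝ := limUnder atTop fun n => S.absProd k n t

theorem absProd_nonneg (k n : ℕ) (t : ℝ) : 0 ≤ S.absProd k n t := norm_nonneg _

theorem continuous_absProd (k n : ℕ) : Continuous (S.absProd k n) := (S.continuous_prod k n).norm

theorem absProd_self (k : ℕ) (t : ℝ) : S.absProd k k t = 1 := by simp [absProd, S.prod_self]

theorem absProd_mul {k l n : ℕ} (hkl : k ≤ l) (hln : l ≤ n) (t : ℝ) :
    S.absProd k n t = S.absProd k l t * S.absProd l n t := by
  rw [absProd, absProd, absProd, ← norm_mul]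
  congr 1
  exact (Finset.prod_Ico_consecutive _ hkl hln).symm

theorem integral_absProd_sq {k n : ℕ} (hkn : k ≤ n) :
    ∫ t, S.absProd k n t ^ 2 ∂unit01 = 1 := by
  rw [integral_unit01]
  exact S.integral_prod_sq hkn

theorem flat_win (hS : S.Flat) {δ : ℝ} (hδ : 0 < δ) : ∃ n₀, ∀ n ≥ n₀, ∀ k ≤ n,
    ∫ t, (S.absProd k (n + 1) t - S.absProd k n t) ^ 2 ∂win δ ≤ (1 / 4 : ℝ) ^ n := by
  obtain ⟨n₀, hn₀⟩ := hS δ hδ
  refine ⟨n₀, fun n hn k hk => ?_⟩
  rcases le_or_gt δ (1 - δ) with h | h
  · have h' := hn₀ n hn k hk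
    rw [intervalIntegral.integral_of_le h, ← integral_Icc_eq_integral_Ioc] at h'
    refine le_of_eq_of_le (integral_congr_ae (Eventually.of_forall fun t => ?_)) h'
    simp only [absProd, S.prod_succ hk, norm_mul]
    ring
  · simp [win, Set.Icc_eq_empty (not_le.2 h)]

/-- The moduli form a Cauchy sequence in mean square on every window. -/
theorem cauchy_win (hS : S.Flat) {δ : ℝ} (hδ : 0 < δ) : ∃ n₀, ∀ n ≥ n₀, ∀ k ≤ n, ∀ N ≥ n,
    ∫ t, (S.absProd k N t - S.absProd k n t) ^ 2 ∂win δ ≤ 4 * (1 / 4 : ℝ) ^ n := by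
  obtain ⟨n₀, hn₀⟩ := S.flat_win hS hδ
  refine ⟨n₀, fun n hn k hk N hN => ?_⟩
  obtain ⟨d, rfl⟩ := Nat.exists_eq_add_of_le hN
  clear hN
  induction d generalizing n with
  | zero => simp
  | succ d ih =>
    have h1 := ih (n + 1) (by omega) (by omega)
    have h2 := hn₀ n hn k hk
    rw [show n + (d + 1) = n + 1 + d by omega]
    have hc : ∀ a b, Continuous fun t => (S.absProd k a t - S.absProd k b t) ^ 2 := fun a b =>
      ((S.continuous_absProd k a).sub (S.continuous_absProd k b)).pow 2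
    calc ∫ t, (S.absProd k (n + 1 + d) t - S.absProd k n t) ^ 2 ∂win δ
        ≤ ∫ t, (2 * (S.absProd k (n + 1 + d) t - S.absProd k (n + 1) t) ^ 2 +
            2 * (S.absProd k (n + 1) t - S.absProd k n t) ^ 2) ∂win δ := by
          refine integral_mono (integrable_win (hc _ _) δ)
            (((integrable_win (hc _ _) δ).const_mul 2).add
              ((integrable_win (hc _ _) δ).const_mul 2)) fun t => ?_
          nlinarith [sq_nonneg (S.absProd k (n + 1 + d) t - 2 * S.absProd k (n + 1) t +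
            S.absProd k n t)]
      _ ≤ 4 * (1 / 4 : ℝ) ^ n := by
          rw [integral_add ((integrable_win (hc _ _) δ).const_mul 2)
            ((integrable_win (hc _ _) δ).const_mul 2), integral_const_mul, integral_const_mul]
          rw [pow_succ] at h1
          linarith

theorem ae_tendsto_win (hS : S.Flat) {δ : ℝ} (hδ : 0 < δ) (k : ℕ) :
    ∀ᵐ t ∂win δ, ∃ l, Tendsto (fun n => S.absProd k n t) atTop (𝓝 l) := by
  obtain ⟨n₀, hn₀⟩ := S.flat_win hS hδ
  set M := max n₀ k
  set d : ℕ → ℝ → ℝ := fun i t => |S.absProd k (i + M + 1) t - S.absProd k (i + M) t| with hd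
  have hdc : ∀ i, Continuous (d i) := fun i =>
    ((S.continuous_absProd k _).sub (S.continuous_absProd k _)).abs
  have hdI : ∀ i, ∫ t, d i t ∂win δ ≤ (1 / 2 : ℝ) ^ i * (1 + (win δ).real Set.univ) := by
    intro i
    have hle : ∀ t, d i t ≤ (2 : ℝ) ^ i * d i t ^ 2 + (1 / 2 : ℝ) ^ i := by
      intro t
      have hp : (0 : ℝ) < 2 ^ i := by positivity
      have : (1 / 2 : ℝ) ^ i = 1 / 2 ^ i := by rw [div_pow, one_pow]
      rw [this]
      nlinarith [sq_nonneg (2 ^ i * d i t - 1), mul_div_cancel₀ (1 : ℝ) hp.ne',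
        (abs_nonneg _ : (0 : ℝ) ≤ d i t)]
    have hsq : ∫ t, d i t ^ 2 ∂win δ ≤ (1 / 4 : ℝ) ^ i := by
      simp only [hd, sq_abs]
      exact (hn₀ (i + M) (by omega) k (by omega)).trans
        (pow_le_pow_of_le_one (by norm_num) (by norm_num) (by omega))
    calc ∫ t, d i t ∂win δ ≤ ∫ t, ((2 : ℝ) ^ i * d i t ^ 2 + (1 / 2 : ℝ) ^ i) ∂win δ :=
          integral_mono (integrable_win (hdc i) δ)
            (((integrable_win ((hdc i).pow 2) δ).const_mul _).add (integrable_const _)) hle
      _ = (2 : ℝ) ^ i * ∫ t, d i t ^ 2 ∂win δ + (win δ).real Set.univ * (1 / 2 : ℝ) ^ i := by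
          rw [integral_add (f := fun t => (2 : ℝ) ^ i * d i t ^ 2)
            ((integrable_win ((hdc i).pow 2) δ).const_mul _) (integrable_const _),
            integral_const_mul, integral_const, smul_eq_mul]
      _ ≤ (2 : ℝ) ^ i * (1 / 4 : ℝ) ^ i + (win δ).real Set.univ * (1 / 2 : ℝ) ^ i :=
          add_le_add (mul_le_mul_of_nonneg_left hsq (by positivity)) le_rfl
      _ = _ := by
          rw [← mul_pow]
          norm_num
          ring
  have hfin : ∫⁻ t, ∑' i, ENNReal.ofReal (d i t) ∂win δ < ⊤ := by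
    rw [lintegral_tsum fun i => (hdc i).measurable.ennreal_ofReal.aemeasurable]
    calc ∑' i, ∫⁻ t, ENNReal.ofReal (d i t) ∂win δ
        ≤ ∑' i : ℕ, ENNReal.ofReal ((1 / 2 : ℝ) ^ i * (1 + (win δ).real Set.univ)) := by
          refine ENNReal.tsum_le_tsum fun i => ?_
          rw [← ofReal_integral_eq_lintegral_ofReal (integrable_win (hdc i) δ)
            (Eventually.of_forall fun t => abs_nonneg _)]
          exact ENNReal.ofReal_le_ofReal (hdI i)
      _ < ⊤ := by
          rw [← ENNReal.ofReal_tsum_of_nonneg (fun i => by positivity)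
            (summable_geometric_two.mul_right _)]
          exact ENNReal.ofReal_lt_top
  filter_upwards [ae_lt_top' (Measurable.ennreal_tsum fun i =>
    (hdc i).measurable.ennreal_ofReal).aemeasurable hfin.ne] with t ht
  have hsum : Summable fun i => d i t := by
    have := ENNReal.summable_toReal ht.ne
    exact this.congr fun i => ENNReal.toReal_ofReal (abs_nonneg _)
  obtain ⟨l, hl⟩ := cauchySeq_tendsto_of_complete
    (cauchySeq_of_summable_dist (f := fun i => S.absProd k (i + M) t) (hsum.congr fun i => by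
      simp only [hd, Real.dist_eq, Nat.succ_eq_add_one]
      rw [abs_sub_comm, show i + 1 + M = i + M + 1 by omega]))
  exact ⟨l, (tendsto_add_atTop_iff_nat M).1 hl⟩

theorem ae_tendsto (hS : S.Flat) (k : ℕ) :
    ∀ᵐ t ∂unit01, Tendsto (fun n => S.absProd k n t) atTop (𝓝 (S.rootDens k t)) :=
  ae_unit01 fun δ hδ => (S.ae_tendsto_win hS hδ k).mono fun t ⟨l, hl⟩ => by
    rw [rootDens, hl.limUnder_eq]
    exact hl

theorem ae_tendsto_win' (hS : S.Flat) {δ : ℝ} (hδ : 0 < δ) (k : ℕ) :
    ∀ᵐ t ∂win δ, Tendsto (fun n => S.absProd k n t) atTop (𝓝 (S.rootDens k t)) :=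
  ae_mono (win_le hδ.le) (S.ae_tendsto hS k)

theorem rootDens_mul (hS : S.Flat) {k l : ℕ} (hkl : k ≤ l) :
    ∀ᵐ t ∂unit01, S.rootDens k t = S.absProd k l t * S.rootDens l t := by
  filter_upwards [S.ae_tendsto hS k, S.ae_tendsto hS l] with t hk hl
  refine tendsto_nhds_unique hk (((hl.const_mul (S.absProd k l t))).congr' ?_)
  filter_upwards [eventually_ge_atTop l] with n hn
  exact (S.absProd_mul hkl hn t).symm

theorem dens_integrable (hS : S.Flat) (k : ℕ) :
    Integrable (fun t => S.rootDens k t ^ 2) unit01 ∧ ∫ t, S.rootDens k t ^ 2 ∂unit01 ≤ 1 :=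
  integrable_of_tendsto (f := fun n t => S.absProd k n t ^ 2) zero_le_one
    (fun n => integrable_unit01 ((S.continuous_absProd k n).pow 2)) (fun n t => sq_nonneg _)
    ((eventually_ge_atTop k).mono fun n hn => (S.integral_absProd_sq hn).le)
    ((S.ae_tendsto hS k).mono fun t ht => ht.pow 2)

theorem rootDens_sub (hS : S.Flat) {δ : ℝ} (hδ : 0 < δ) : ∃ n₀, ∀ n ≥ n₀, ∀ k ≤ n,
    Integrable (fun t => (S.rootDens k t - S.absProd k n t) ^ 2) (win δ) ∧
      ∫ t, (S.rootDens k t - S.absProd k n t) ^ 2 ∂win δ ≤ 4 * (1 / 4 : ℝ) ^ n := by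
  obtain ⟨n₀, hn₀⟩ := S.cauchy_win hS hδ
  refine ⟨n₀, fun n hn k hk => integrable_of_tendsto
    (f := fun N t => (S.absProd k N t - S.absProd k n t) ^ 2) (by positivity)
    (fun N => integrable_win
      (((S.continuous_absProd k _).sub (S.continuous_absProd k _)).pow 2) δ)
    (fun N t => sq_nonneg _) ((eventually_ge_atTop n).mono fun N hN => hn₀ n hn k hk N hN)
    ((S.ae_tendsto_win' hS hδ k).mono fun t ht => (ht.sub tendsto_const_nhds).pow 2)⟩

theorem finite_zeros {k l : ℕ} (hkl : k ≤ l) :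
    {t : ℝ | t ∈ Set.Ico (0 : ℝ) 1 ∧ S.prod k l t = 0}.Finite := by
  classical
  obtain ⟨s, hne, -, hs⟩ := S.exists_support hkl
  set p : Polynomial ℂ := ∑ i ∈ s, Polynomial.X ^ i with hp
  have hp0 : p ≠ 0 := by
    obtain ⟨i, hi⟩ := hne
    intro h
    have := congrArg (fun q : Polynomial ℂ => q.coeff i) h
    simp [hp, Polynomial.coeff_X_pow, Finset.sum_ite_eq, hi] at this
  refine Set.Finite.of_finite_image (f := ch) ?_ ?_
  · refine (p.roots.toFinset.finite_toSet).subset ?_
    rintro _ ⟨t, ⟨-, ht⟩, rfl⟩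
    rw [Finset.mem_coe, Multiset.mem_toFinset, Polynomial.mem_roots hp0, Polynomial.IsRoot]
    rw [hs, div_eq_zero_iff] at ht
    have hc : (Real.sqrt s.card : ℂ) ≠ 0 :=
      Complex.ofReal_ne_zero.2 (Real.sqrt_pos.2 (Nat.cast_pos.2 hne.card_pos)).ne'
    rw [hp, Polynomial.eval_finsetSum, ← ht.resolve_right hc]
    refine Finset.sum_congr rfl fun i _ => ?_
    simp only [Polynomial.eval_pow, Polynomial.eval_X, ch,
      ← Complex.exp_nat_mul]
    congr 1
    push_cast
    ring
  · intro a ha b hb hab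
    rw [ch, ch, Complex.exp_eq_exp_iff_exists_int] at hab
    obtain ⟨z, hz⟩ := hab
    have hz' := congrArg Complex.im hz
    simp at hz'
    have h : a = b + z := by
      have : (2 * Real.pi) * (a - b - z) = 0 := by linarith
      have := (mul_eq_zero.1 this).resolve_left (by positivity)
      linarith
    have h0 : z = 0 := by
      have h1 : (z : ℝ) < 1 := by linarith [ha.1.2, hb.1.1]
      have h2 : (-1 : ℝ) < z := by linarith [ha.1.1, hb.1.2]
      have h1' : z < 1 := by exact_mod_cast h1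
      have h2' : -1 < z := by exact_mod_cast h2
      omega
    subst h0
    simpa using h

theorem ae_prod_ne_zero {k l : ℕ} (hkl : k ≤ l) : ∀ᵐ t ∂unit01, S.absProd k l t ≠ 0 := by
  rw [unit01, ← Measure.restrict_congr_set Ico_ae_eq_Icc, ae_restrict_iff' measurableSet_Ico]
  have h0 := (S.finite_zeros hkl).measure_zero (volume : Measure ℝ)
  filter_upwards [measure_eq_zero_iff_ae_notMem.1 h0] with t ht hmem hzero
  exact ht ⟨hmem, norm_eq_zero.1 hzero⟩

theorem rootDens_ne_zero (hS : S.Flat) (k : ℕ) : ∀ᵐ t ∂unit01, S.rootDens k t ≠ 0 := by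
  refine ae_unit01 fun δ hδ => ?_
  rw [ae_iff]
  simp only [not_not]
  obtain ⟨n₀, hn₀⟩ := S.rootDens_sub hS hδ
  have hb : ∀ l ≥ max n₀ k, (win δ).real {t | S.rootDens k t = 0} ≤ 4 * (1 / 4 : ℝ) ^ l := by
    intro l hl
    obtain ⟨hi, hb⟩ := hn₀ l (by omega) l le_rfl
    have hsub : {t | S.rootDens k t = 0} ≤ᵐ[win δ]
        {t | 1 ≤ (S.rootDens l t - S.absProd l l t) ^ 2} := by
      filter_upwards [ae_mono (win_le hδ.le) (S.rootDens_mul hS (show k ≤ l by omega)),
        ae_mono (win_le hδ.le) (S.ae_prod_ne_zero (show k ≤ l by omega))] with t h1 h2 h0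
      have : S.rootDens l t = 0 := by
        have h0' : S.rootDens k t = 0 := h0
        rw [h1, mul_eq_zero] at h0'
        exact h0'.resolve_left h2
      show 1 ≤ (S.rootDens l t - S.absProd l l t) ^ 2
      simp [this, absProd_self]
    have hmk := mul_meas_ge_le_integral_of_nonneg
      (Eventually.of_forall fun t => sq_nonneg (S.rootDens l t - S.absProd l l t)) hi 1
    rw [one_mul] at hmk
    refine le_trans ?_ (hmk.trans hb)
    exact ENNReal.toReal_mono (measure_ne_top _ _) (measure_mono_ae hsub)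
  have hlim : Tendsto (fun l : ℕ => 4 * (1 / 4 : ℝ) ^ l) atTop (𝓝 0) := by
    simpa using (tendsto_pow_atTop_nhds_zero_of_lt_one (r := (1 / 4 : ℝ)) (by norm_num)
      (by norm_num)).const_mul 4
  have h0 := ge_of_tendsto hlim ((eventually_ge_atTop (max n₀ k)).mono hb)
  exact (measureReal_eq_zero_iff).1 (le_antisymm h0 measureReal_nonneg)

theorem norm_ch_sub_one (x : ℝ) : ‖ch x - 1‖ ≤ 2 * Real.pi * |x| := by
  have h := Real.norm_exp_I_mul_ofReal_sub_one_le (x := 2 * Real.pi * x)
  rw [ch, mul_comm _ Complex.I]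
  refine h.trans_eq ?_
  rw [Real.norm_eq_abs, abs_mul, abs_of_pos Real.two_pi_pos]

theorem norm_ch_le (q : ℤ) {δ t : ℝ} (ht : t ∈ Set.Icc (0 : ℝ) 1)
    (hout : t ∉ Set.Icc δ (1 - δ)) : ‖ch (q * t) - 1‖ ≤ 2 * Real.pi * |(q : ℝ)| * δ := by
  rw [mul_assoc (2 * Real.pi)]
  rcases lt_or_ge t δ with h | h
  · refine (norm_ch_sub_one _).trans (mul_le_mul_of_nonneg_left ?_ Real.two_pi_pos.le)
    rw [abs_mul, abs_of_nonneg ht.1]
    exact mul_le_mul_of_nonneg_left h.le (abs_nonneg _)
  · have hgt : 1 - δ < t := not_le.1 fun h' => hout ⟨h, h'⟩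
    have he : ch (q * t) = ch (q * (t - 1)) := by
      rw [ch, ch, Complex.exp_eq_exp_iff_exists_int]
      exact ⟨q, by push_cast; ring⟩
    rw [he]
    refine (norm_ch_sub_one _).trans (mul_le_mul_of_nonneg_left ?_ Real.two_pi_pos.le)
    rw [abs_mul, abs_of_nonpos (by linarith [ht.2] : t - 1 ≤ 0)]
    exact mul_le_mul_of_nonneg_left (by linarith) (abs_nonneg _)

theorem moments (hS : S.Flat) (k : ℕ) (q : ℤ) :
    Tendsto (fun n => ∫ t in (0 : ℝ)..1, ((‖S.prod k n t‖ ^ 2 : ℝ) : ℂ) * ch (q * t)) atTop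
      (𝓝 ((∫ t in (0 : ℝ)..1, ((S.rootDens k t ^ 2 : ℝ) : ℂ) * ch (q * t)) +
        ((1 - ∫ t in (0 : ℝ)..1, S.rootDens k t ^ 2 : ℝ) : ℂ))) := by
  rw [Metric.tendsto_atTop]
  intro ε hε
  obtain ⟨hgi, hg1⟩ := S.dens_integrable hS k
  have hcc : Continuous fun t : ℝ => ch (q * t) := by
    unfold ch
    fun_prop
  set δ : ℝ := ε / (16 * Real.pi * (|(q : ℝ)| + 1)) with hδdef
  have hδ : 0 < δ := by positivity
  set s : ℝ := ε / 16 with hsdef
  have hs : 0 < s := by positivity
  obtain ⟨n₀, hn₀⟩ := S.rootDens_sub hS hδ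
  have hlim : Tendsto (fun n : ℕ => 4 * (1 / 4 : ℝ) ^ n / s) atTop (𝓝 0) := by
    simpa using ((tendsto_pow_atTop_nhds_zero_of_lt_one (r := (1 / 4 : ℝ)) (by norm_num)
      (by norm_num)).const_mul 4).div_const s
  obtain ⟨N, hN⟩ := eventually_atTop.1 (hlim.eventually (gt_mem_nhds (show 0 < ε / 8 by positivity)))
  refine ⟨max (max n₀ k) N, fun n hn => ?_⟩
  obtain ⟨hdi, hd⟩ := hn₀ n (by omega) k (by omega)
  set G := fun t => S.absProd k n t ^ 2
  set D := fun t => S.rootDens k t ^ 2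
  have hGc : Continuous G := (S.continuous_absProd k n).pow 2
  have hGi : Integrable G unit01 := integrable_unit01 hGc
  have hG1 : ∫ t, G t ∂unit01 = 1 := S.integral_absProd_sq (show k ≤ n by omega)
  have hphi : ∀ t, ‖ch (q * t) - 1‖ ≤ 2 := fun t =>
    (norm_sub_le _ _).trans (by rw [ch, Complex.norm_exp_ofReal_mul_I, norm_one]; norm_num)
  have hchb : ∀ t : ℝ, ‖ch (q * t)‖ ≤ 1 := fun t => le_of_eq (Complex.norm_exp_ofReal_mul_I _)
  have i1 : Integrable (fun t => (G t : ℂ) * ch (q * t)) unit01 :=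
    hGi.ofReal.mul_bdd hcc.aestronglyMeasurable (Eventually.of_forall hchb)
  have i2 : Integrable (fun t => (D t : ℂ) * ch (q * t)) unit01 :=
    hgi.ofReal.mul_bdd hcc.aestronglyMeasurable (Eventually.of_forall hchb)
  have key : (∫ t in (0 : ℝ)..1, ((‖S.prod k n t‖ ^ 2 : ℝ) : ℂ) * ch (q * t)) -
      ((∫ t in (0 : ℝ)..1, (D t : ℂ) * ch (q * t)) +
        ((1 - ∫ t in (0 : ℝ)..1, D t : ℝ) : ℂ)) =
      ∫ t, ((G t - D t : ℝ) : ℂ) * (ch (q * t) - 1) ∂unit01 := by
    have i3 : Integrable (fun t => ((G t - D t : ℝ) : ℂ)) unit01 := (hGi.sub hgi).ofReal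
    have e : ∀ t, ((G t - D t : ℝ) : ℂ) * (ch (q * t) - 1) =
        ((G t : ℂ) * ch (q * t) - (D t : ℂ) * ch (q * t)) - ((G t - D t : ℝ) : ℂ) := fun t => by
      push_cast
      ring
    simp only [e]
    rw [integral_sub (f := fun t => (G t : ℂ) * ch (q * t) - (D t : ℂ) * ch (q * t))
      (i1.sub i2) i3, integral_sub i1 i2, integral_complex_ofReal, integral_sub hGi hgi, hG1,
      integral_unit01, integral_unit01, integral_unit01]
    simp only [G, absProd]
    push_cast
    ring
  rw [dist_eq_norm, key]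
  have hwi : ∀ {f : ℝ → ℝ}, Integrable f unit01 → Integrable f (win δ) := fun h =>
    h.mono_measure (win_le hδ.le)
  have hD : Integrable (fun t => |G t - D t|) (win δ) := (hwi (hGi.sub hgi)).abs
  have hset : MeasurableSet (Set.Icc δ (1 - δ)) := measurableSet_Icc
  have hwin : (unit01.restrict (Set.Icc δ (1 - δ))) = win δ := by
    rw [unit01, win, Measure.restrict_restrict hset,
      Set.inter_eq_left.2 (Set.Icc_subset_Icc hδ.le (by linarith))]
  have hind : Integrable ((Set.Icc δ (1 - δ)).indicator fun t => |G t - D t|) unit01 :=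
    (hGi.sub hgi).abs.indicator hset
  have hsum : Integrable (fun t => 2 * Real.pi * |(q : ℝ)| * δ * (G t + D t)) unit01 :=
    (hGi.add hgi).const_mul _
  have step1 : ‖∫ t, ((G t - D t : ℝ) : ℂ) * (ch (q * t) - 1) ∂unit01‖ ≤
      2 * Real.pi * |(q : ℝ)| * δ * 2 + 2 * ∫ t, |G t - D t| ∂win δ := by
    refine (norm_integral_le_of_norm_le (hsum.add (hind.const_mul 2)) ?_).trans ?_
    · refine (ae_restrict_mem measurableSet_Icc).mono fun t ht => ?_
      rw [norm_mul, Complex.norm_real, Real.norm_eq_abs, Pi.add_apply]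
      have hG0 : 0 ≤ G t := sq_nonneg _
      have hD0 : 0 ≤ D t := sq_nonneg _
      by_cases hin : t ∈ Set.Icc δ (1 - δ)
      · rw [Set.indicator_of_mem hin]
        nlinarith [hphi t, abs_nonneg (G t - D t),
          (by positivity : 0 ≤ 2 * Real.pi * |(q : ℝ)| * δ * (G t + D t))]
      · rw [Set.indicator_of_notMem hin, mul_zero, add_zero]
        calc |G t - D t| * ‖ch (q * t) - 1‖ ≤ (G t + D t) * (2 * Real.pi * |(q : ℝ)| * δ) :=
              mul_le_mul (abs_sub_le_iff.2 ⟨by linarith, by linarith⟩) (norm_ch_le q ht hin)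
                (norm_nonneg _) (by linarith)
          _ = _ := mul_comm _ _
    · simp only [Pi.add_apply]
      rw [integral_add hsum (hind.const_mul 2), integral_const_mul, integral_const_mul,
        integral_add hGi hgi, hG1, integral_indicator hset, hwin]
      have : 1 + ∫ t, D t ∂unit01 ≤ 2 := by linarith
      nlinarith [(by positivity : 0 ≤ 2 * Real.pi * |(q : ℝ)| * δ)]
  have hmono : ∀ {f : ℝ → ℝ}, Integrable f unit01 → (∀ t, 0 ≤ f t) →
      ∫ t, f t ∂win δ ≤ ∫ t, f t ∂unit01 := fun h h0 =>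
    integral_mono_measure (win_le hδ.le) (Eventually.of_forall h0) h
  have step2 : ∫ t, |G t - D t| ∂win δ ≤ 4 * (1 / 4 : ℝ) ^ n / (2 * s) + s / 2 * 4 := by
    have hbd : ∀ t, |G t - D t| ≤ 1 / (2 * s) * (S.rootDens k t - S.absProd k n t) ^ 2 +
        s / 2 * (2 * G t + 2 * D t) := by
      intro t
      set a := S.absProd k n t
      set b := S.rootDens k t
      have hp : |G t - D t| = |b - a| * |b + a| := by
        rw [← abs_mul, abs_sub_comm]
        congr 1
        simp only [G, D]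
        ring
      have hsq : s / 2 * |b + a| ^ 2 ≤ s / 2 * (2 * G t + 2 * D t) := by
        refine mul_le_mul_of_nonneg_left ?_ (by positivity)
        rw [sq_abs]
        simp only [G, D]
        nlinarith [sq_nonneg (b - a)]
      have hyoung : |b - a| * |b + a| ≤ 1 / (2 * s) * |b - a| ^ 2 + s / 2 * |b + a| ^ 2 := by
        have h0 : 0 ≤ (|b - a| - s * |b + a|) ^ 2 / (2 * s) :=
          div_nonneg (sq_nonneg _) (by positivity)
        have : (|b - a| - s * |b + a|) ^ 2 / (2 * s) =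
            1 / (2 * s) * |b - a| ^ 2 + s / 2 * |b + a| ^ 2 - |b - a| * |b + a| := by
          field_simp
          ring
        linarith
      rw [hp]
      rw [sq_abs (b - a)] at hyoung
      linarith
    have i2' : Integrable (fun t => s / 2 * (2 * G t + 2 * D t)) (win δ) :=
      (((hwi hGi).const_mul 2).add ((hwi hgi).const_mul 2)).const_mul _
    refine (integral_mono hD ((hdi.const_mul _).add i2') hbd).trans ?_
    simp only [Pi.add_apply]
    rw [integral_add (hdi.const_mul _) i2', integral_const_mul, integral_const_mul,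
      integral_add ((hwi hGi).const_mul 2) ((hwi hgi).const_mul 2), integral_const_mul,
      integral_const_mul]
    have h1 := hmono hGi fun t => sq_nonneg _
    have h2 := hmono hgi fun t => sq_nonneg _
    rw [hG1] at h1
    refine add_le_add ?_ (mul_le_mul_of_nonneg_left (by linarith) (by positivity))
    rw [div_mul_eq_mul_div, one_mul]
    gcongr
  have hqδ : 2 * Real.pi * |(q : ℝ)| * δ * 2 ≤ ε / 4 := by
    rw [hδdef]
    rw [show 2 * Real.pi * |(q : ℝ)| * (ε / (16 * Real.pi * (|(q : ℝ)| + 1))) * 2 =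
      ε / 4 * (|(q : ℝ)| / (|(q : ℝ)| + 1)) by field_simp; ring]
    exact mul_le_of_le_one_right (by positivity) ((div_le_one (by positivity)).2 (by linarith))
  have hE := hN n (by omega)
  have hEq : 4 * (1 / 4 : ℝ) ^ n / (2 * s) = 4 * (1 / 4 : ℝ) ^ n / s / 2 := by
    field_simp
  have hs' : s = ε / 16 := hsdef
  linarith

end Stack

theorem density : DensityStatement := fun S hS =>
  ⟨fun k t => S.rootDens k t ^ 2,
    fun k => 1 - ∫ t in (0 : ℝ)..1, S.rootDens k t ^ 2,
    fun k => (intervalIntegrable_iff_integrableOn_Icc_of_le zero_le_one).2 (S.dens_integrable hS k).1,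
    fun _ _ => sq_nonneg _,
    fun k => (S.rootDens_ne_zero hS k).mono fun _ ht => sq_pos_of_ne_zero ht,
    fun _ _ hkl => (S.rootDens_mul hS hkl).mono fun t ht => by
      simp only [ht, mul_pow, Stack.absProd],
    fun k q => S.moments hS k q⟩

end Vale.Agent.P130.Full
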