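import Vale.Agent.P130.Full.Statements

/-!
P130, module Model: cutting and stacking on the real line. Level `i` of tower `n` is the cell
number `idx n i` of the grid of width `width n`; the map is a translation on every level below
the top one and is completed by a Borel bijection on a null set.
-/

open MeasureTheory Filter Set
open scoped Topology

noncomputable section

namespace Vale.Agent.P130.Full.Model

variable (S : Stack)

/-- The number of levels given to each column of stage `n`. -/
def span (n : ℕ) : ℕ := S.height n + S.A n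

lemma height_succ (n : ℕ) : S.height (n + 1) = S.m n * span S n := rfl

lemma m_pos (n : ℕ) : 0 < S.m n := lt_of_lt_of_le Nat.zero_lt_two (S.two_le n)

lemma height_pos : ∀ n, 0 < S.height n
  | 0 => Nat.one_pos
  | n + 1 => by
    rw [height_succ]
    exact Nat.mul_pos (m_pos S n) (Nat.add_pos_left (height_pos n) _)

/-- The width of the levels of tower `n`. -/
def width : ℕ → ℝ
  | 0 => 1
  | n + 1 => width n / S.m n

lemma width_pos : ∀ n, 0 < width S n
  | 0 => one_pos
  | n + 1 => div_pos (width_pos n) (Nat.cast_pos.2 (m_pos S n))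

lemma width_succ_mul (n : ℕ) : width S (n + 1) * S.m n = width S n :=
  div_mul_cancel₀ _ (Nat.cast_pos.2 (m_pos S n)).ne'

lemma width_le : ∀ n, width S n ≤ (1 / 2 : ℝ) ^ n
  | 0 => by simp [width]
  | n + 1 => by
    have h2 : (2 : ℝ) ≤ S.m n := by exact_mod_cast S.two_le n
    calc width S n / S.m n ≤ width S n / 2 :=
          div_le_div_of_nonneg_left (width_pos S n).le two_pos h2
      _ ≤ (1 / 2 : ℝ) ^ (n + 1) := by rw [pow_succ]; linarith [width_le n]

lemma tendsto_width : Tendsto (width S) atTop (𝓝 0) :=
  squeeze_zero (fun n => (width_pos S n).le) (width_le S)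
    (tendsto_pow_atTop_nhds_zero_of_lt_one (by norm_num) (by norm_num))

/-- The cell of the grid carrying level `i` of tower `n`. -/
def idx : ℕ → ℕ → ℕ
  | 0, _ => 0
  | n + 1, p =>
    if hj : p / span S n < S.m n then
      if S.a n ⟨_, hj⟩ ≤ p % span S n ∧ p % span S n < S.a n ⟨_, hj⟩ + S.height n then
        idx n (p % span S n - S.a n ⟨_, hj⟩) * S.m n + p / span S n
      else
        S.height n * S.m n + (p / span S n * S.A n +
          if p % span S n < S.a n ⟨_, hj⟩ then p % span S n else p % span S n - S.height n)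
    else 0

/-- A level of tower `n + 1` is a column level or a spacer. -/
lemma idx_succ_cases {n p : ℕ} (hp : p < S.height (n + 1)) :
    ∃ (j : Fin (S.m n)) (r : ℕ), r < span S n ∧ p = (j : ℕ) * span S n + r ∧
      ((S.a n j ≤ r ∧ r < S.a n j + S.height n ∧
          idx S (n + 1) p = idx S n (r - S.a n j) * S.m n + j) ∨
        (¬(S.a n j ≤ r ∧ r < S.a n j + S.height n) ∧
          idx S (n + 1) p = S.height n * S.m n + ((j : ℕ) * S.A n +
            if r < S.a n j then r else r - S.height n))) := by
  have hs : 0 < span S n := Nat.add_pos_left (height_pos S n) _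
  have hj : p / span S n < S.m n := Nat.div_lt_of_lt_mul (by rw [mul_comm]; exact hp)
  refine ⟨⟨_, hj⟩, p % span S n, Nat.mod_lt _ hs, (Nat.div_add_mod' p (span S n)).symm, ?_⟩
  by_cases h : S.a n ⟨_, hj⟩ ≤ p % span S n ∧ p % span S n < S.a n ⟨_, hj⟩ + S.height n
  · exact Or.inl ⟨h.1, h.2, by rw [idx, dif_pos hj, if_pos h]⟩
  · exact Or.inr ⟨h, by rw [idx, dif_pos hj, if_neg h]⟩

lemma spacer_lt {n : ℕ} (j : Fin (S.m n)) {r : ℕ} (hr : r < span S n)
    (h : ¬(S.a n j ≤ r ∧ r < S.a n j + S.height n)) :
    (if r < S.a n j then r else r - S.height n) < S.A n := by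
  have := S.a_le n j
  unfold span at hr
  split_ifs <;> omega

lemma idx_spec : ∀ n, (∀ i, i < S.height n → idx S n i < S.height n) ∧
    ∀ i i', i < S.height n → i' < S.height n → idx S n i = idx S n i' → i = i'
  | 0 => ⟨fun i _ => height_pos S 0, fun i i' hi hi' _ => by simp [Stack.height] at hi hi'; omega⟩
  | n + 1 => by
    obtain ⟨hlt, hinj⟩ := idx_spec n
    refine ⟨fun p hp => ?_, fun p p' hp hp' he => ?_⟩
    · obtain ⟨j, r, hr, -, ⟨h1, h2, e⟩ | ⟨h, e⟩⟩ := idx_succ_cases S hp <;> rw [e, height_succ]
      · have := hlt (r - S.a n j) (by omega)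
        have hj := j.2
        unfold span
        nlinarith
      · have := spacer_lt S j hr h
        have hj := j.2
        unfold span
        nlinarith
    · obtain ⟨j, r, hr, rfl, H⟩ := idx_succ_cases S hp
      obtain ⟨j', r', hr', rfl, H'⟩ := idx_succ_cases S hp'
      rcases H with ⟨h1, h2, e⟩ | ⟨h, e⟩ <;> rcases H' with ⟨h1', h2', e'⟩ | ⟨h', e'⟩ <;>
        rw [e, e'] at he
      · have hj : (j : ℕ) = j' := by
          have := congrArg (· % S.m n) he
          simpa [Nat.mul_add_mod', Nat.mod_eq_of_lt j.2, Nat.mod_eq_of_lt j'.2] using this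
        obtain rfl := Fin.ext hj
        have := hinj _ _ (by omega) (by omega)
          (Nat.eq_of_mul_eq_mul_right (m_pos S n) (Nat.add_right_cancel he))
        omega
      · have := Nat.mul_le_mul_right (S.m n) (Nat.succ_le_of_lt (hlt (r - S.a n j) (by omega)))
        have hj := j.2
        rw [Nat.succ_mul] at this
        omega
      · have := Nat.mul_le_mul_right (S.m n)
          (Nat.succ_le_of_lt (hlt (r' - S.a n j') (by omega)))
        have hj := j'.2
        rw [Nat.succ_mul] at this
        omega
      · have hA := spacer_lt S j hr h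
        have hA' := spacer_lt S j' hr' h'
        have he' := Nat.add_left_cancel he
        have hjj : (j : ℕ) = j' := by
          have := congrArg (· / S.A n) he'
          simpa [Nat.add_comm ((j : ℕ) * _), Nat.add_comm ((j' : ℕ) * _),
            Nat.add_mul_div_right _ _ (by omega : 0 < S.A n), Nat.div_eq_of_lt hA,
            Nat.div_eq_of_lt hA'] using this
        obtain rfl := Fin.ext hjj
        have he'' := Nat.add_left_cancel he'
        split_ifs at he'' <;> omega

lemma idx_surj {n v : ℕ} (hv : v < S.height n) : ∃ i, i < S.height n ∧ idx S n i = v := by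
  have h := Finset.surjOn_of_injOn_of_card_le (s := Finset.range (S.height n))
    (t := Finset.range (S.height n)) (idx S n) (fun i hi => by
      simp only [Finset.coe_range, Set.mem_Iio] at hi ⊢
      exact (idx_spec S n).1 i hi) (fun i hi i' hi' => by
      simp only [Finset.coe_range, Set.mem_Iio] at hi hi'
      exact (idx_spec S n).2 i i' hi hi') le_rfl
  obtain ⟨i, hi, e⟩ := h (by simpa using hv : v ∈ (Finset.range (S.height n) : Set ℕ))
  exact ⟨i, by simpa using hi, e⟩

lemma pos_add_lt {n : ℕ} (j : Fin (S.m n)) {i : ℕ} (hi : i < S.height n) :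
    S.pos n j + i < S.height (n + 1) := by
  have hj := j.2
  have := S.a_le n j
  rw [height_succ]
  unfold Stack.pos span
  nlinarith

lemma idx_pos {n : ℕ} (j : Fin (S.m n)) {i : ℕ} (hi : i < S.height n) :
    idx S (n + 1) (S.pos n j + i) = idx S n i * S.m n + j := by
  have ha := S.a_le n j
  have hr : S.a n j + i < span S n := by unfold span; omega
  have e : S.pos n j + i = span S n * j + (S.a n j + i) := by unfold Stack.pos span; ring
  have hd : (S.pos n j + i) / span S n = j := by
    rw [e, Nat.mul_add_div (by omega), Nat.div_eq_of_lt hr, add_zero]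
  have hm : (S.pos n j + i) % span S n = S.a n j + i := by
    rw [e, Nat.mul_add_mod, Nat.mod_eq_of_lt hr]
  have hj : (S.pos n j + i) / span S n < S.m n := hd ▸ j.2
  have hfin : (⟨(S.pos n j + i) / span S n, hj⟩ : Fin (S.m n)) = j := Fin.ext hd
  rw [idx, dif_pos hj, hfin, hd, hm, if_pos ⟨by omega, by omega⟩, Nat.add_sub_cancel_left]

/-! ### Cells and levels -/

/-- Cell `v` of the grid of tower `n`. -/
def cell (n v : ℕ) : Set ℝ := Ico (v * width S n) ((v + 1) * width S n)

/-- Level `i` of tower `n`. -/
def level (n i : ℕ) : Set ℝ := cell S n (idx S n i)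

lemma cell_unique {n v v' : ℕ} {x : ℝ} (h : x ∈ cell S n v) (h' : x ∈ cell S n v') : v = v' := by
  have h1 : (v : ℝ) < v' + 1 := lt_of_mul_lt_mul_right (h.1.trans_lt h'.2) (width_pos S n).le
  have h2 : (v' : ℝ) < v + 1 := lt_of_mul_lt_mul_right (h'.1.trans_lt h.2) (width_pos S n).le
  have h1' : v < v' + 1 := by exact_mod_cast h1
  have h2' : v' < v + 1 := by exact_mod_cast h2
  omega

lemma level_unique {n i i' : ℕ} (hi : i < S.height n) (hi' : i' < S.height n) {x : ℝ}
    (h : x ∈ level S n i) (h' : x ∈ level S n i') : i = i' :=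
  (idx_spec S n).2 i i' hi hi' (cell_unique S h h')

lemma mem_cell_succ_iff {n q : ℕ} {x : ℝ} :
    x ∈ cell S n q ↔ ∃ j : Fin (S.m n), x ∈ cell S (n + 1) (q * S.m n + j) := by
  have hw := width_pos S (n + 1)
  have hm : width S (n + 1) * S.m n = width S n := width_succ_mul S n
  constructor
  · rintro ⟨h1, h2⟩
    have hx : 0 ≤ x / width S (n + 1) :=
      div_nonneg ((mul_nonneg (Nat.cast_nonneg q) (width_pos S n).le).trans h1) hw.le
    have hlo : q * S.m n ≤ ⌊x / width S (n + 1)⌋₊ := by
      rw [Nat.le_floor_iff hx, le_div_iff₀ hw, Nat.cast_mul, mul_assoc,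
        mul_comm (S.m n : ℝ), hm]
      exact h1
    have hhi : ⌊x / width S (n + 1)⌋₊ < (q + 1) * S.m n := by
      rw [Nat.floor_lt hx, div_lt_iff₀ hw, Nat.cast_mul, mul_assoc, mul_comm (S.m n : ℝ), hm]
      exact_mod_cast h2
    rw [add_mul, one_mul] at hhi
    refine ⟨⟨⌊x / width S (n + 1)⌋₊ - q * S.m n, by omega⟩, ?_⟩
    simp only [cell, mem_Ico, Nat.add_sub_cancel' hlo]
    exact ⟨(le_div_iff₀ hw).1 (Nat.floor_le hx), (div_lt_iff₀ hw).1 (Nat.lt_floor_add_one _)⟩
  · rintro ⟨j, h1, h2⟩
    have hj : ((j : ℕ) : ℝ) + 1 ≤ S.m n := by exact_mod_cast j.2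
    have hj0 : (0 : ℝ) ≤ ((j : ℕ) : ℝ) := Nat.cast_nonneg _
    push_cast at h1 h2
    simp only [cell, mem_Ico, ← hm]
    constructor <;> nlinarith

lemma level_refine {n i : ℕ} (hi : i < S.height n) :
    level S n i = ⋃ j : Fin (S.m n), level S (n + 1) (S.pos n j + i) := by
  ext x
  simp only [level, mem_iUnion, idx_pos S _ hi]
  exact mem_cell_succ_iff S

/-- The translation from level `i` to level `i + 1`. -/
def shift (n i : ℕ) : ℝ := ((idx S n (i + 1) : ℝ) - idx S n i) * width S n

lemma mem_succ_iff {n i : ℕ} {x : ℝ} :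
    x + shift S n i ∈ level S n (i + 1) ↔ x ∈ level S n i := by
  simp only [level, cell, mem_Ico, shift]
  constructor <;> rintro ⟨h1, h2⟩ <;> constructor <;> nlinarith

lemma lift_level {n i N : ℕ} {x : ℝ} (hN : n ≤ N) (hi : i + 1 < S.height n)
    (hx : x ∈ level S n i) :
    ∃ i', i' + 1 < S.height N ∧ x ∈ level S N i' ∧ shift S N i' = shift S n i := by
  induction N, hN using Nat.le_induction with
  | base => exact ⟨i, hi, hx, rfl⟩
  | succ N _ ih =>
    obtain ⟨i', hi', hx', hd⟩ := ih
    rw [level_refine S (by omega), mem_iUnion] at hx'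
    obtain ⟨j, hj⟩ := hx'
    refine ⟨S.pos N j + i', ?_, hj, ?_⟩
    · have := pos_add_lt S j hi'
      omega
    · rw [← hd, shift, shift, add_assoc, idx_pos S j hi', idx_pos S j (by omega : i' < S.height N),
        ← width_succ_mul S N]
      push_cast
      ring

/-- The levels below the top of tower `n`. -/
def dom (n : ℕ) : Set ℝ := ⋃ i ∈ Finset.range (S.height n - 1), level S n i

/-- The levels above the bottom of tower `n`. -/
def ran (n : ℕ) : Set ℝ := ⋃ i ∈ Finset.range (S.height n - 1), level S n (i + 1)

lemma mem_dom {n : ℕ} {x : ℝ} : x ∈ dom S n ↔ ∃ i, i + 1 < S.height n ∧ x ∈ level S n i := by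
  simp only [dom, mem_iUnion, Finset.mem_range, exists_prop]
  exact exists_congr fun i => and_congr_left' (by omega)

lemma mem_ran {n : ℕ} {x : ℝ} :
    x ∈ ran S n ↔ ∃ i, i + 1 < S.height n ∧ x ∈ level S n (i + 1) := by
  simp only [ran, mem_iUnion, Finset.mem_range, exists_prop]
  exact exists_congr fun i => and_congr_left' (by omega)

lemma measurable_level (n i : ℕ) : MeasurableSet (level S n i) := measurableSet_Ico

lemma dom_mono : Monotone (dom S) := fun n N hN x hx => by
  obtain ⟨i, hi, h⟩ := (mem_dom S).1 hx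
  obtain ⟨i', hi', h', -⟩ := lift_level S hN hi h
  exact (mem_dom S).2 ⟨i', hi', h'⟩

lemma ran_mono : Monotone (ran S) := fun n N hN x hx => by
  obtain ⟨i, hi, h⟩ := (mem_ran S).1 hx
  obtain ⟨i', hi', h', hd⟩ := lift_level S hN hi
    ((mem_succ_iff S (x := x - shift S n i)).1 (by rwa [sub_add_cancel]))
  refine (mem_ran S).2 ⟨i', hi', ?_⟩
  have := (mem_succ_iff S).2 h'
  rwa [hd, sub_add_cancel] at this

/-- The set where the translations define the map. -/
def Dom : Set ℝ := ⋃ n, dom S n

/-- The image of `Dom`. -/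
def Ran : Set ℝ := ⋃ n, ran S n

lemma measurable_dom (n : ℕ) : MeasurableSet (dom S n) :=
  Finset.measurableSet_biUnion _ fun i _ => measurable_level S n i

lemma measurable_ran (n : ℕ) : MeasurableSet (ran S n) :=
  Finset.measurableSet_biUnion _ fun i _ => measurable_level S n (i + 1)

lemma measurable_Dom : MeasurableSet (Dom S) := MeasurableSet.iUnion (measurable_dom S)

lemma measurable_Ran : MeasurableSet (Ran S) := MeasurableSet.iUnion (measurable_ran S)

/-- The translations of tower `n`. -/
def stepAt (n : ℕ) (x : ℝ) : ℝ :=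
  x + ∑ i ∈ Finset.range (S.height n - 1), (level S n i).indicator (fun _ => shift S n i) x

lemma stepAt_of_mem {n i : ℕ} {x : ℝ} (hi : i + 1 < S.height n) (hx : x ∈ level S n i) :
    stepAt S n x = x + shift S n i := by
  unfold stepAt
  rw [Finset.sum_eq_single i (fun i' hi' hne => indicator_of_notMem (fun h => hne ?_) _)
    (fun h => absurd (Finset.mem_range.2 (by omega)) h), indicator_of_mem hx]
  rw [Finset.mem_range] at hi'
  exact level_unique S (by omega) (by omega) h hx

open scoped Classical in
/-- The map on `Dom`. -/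
def step (x : ℝ) : ℝ := if h : ∃ n, x ∈ dom S n then stepAt S (Nat.find h) x else x

lemma step_of_mem {n i : ℕ} {x : ℝ} (hi : i + 1 < S.height n) (hx : x ∈ level S n i) :
    step S x = x + shift S n i := by
  classical
  have hex : ∃ n, x ∈ dom S n := ⟨n, (mem_dom S).2 ⟨i, hi, hx⟩⟩
  rw [step, dif_pos hex]
  obtain ⟨i0, hi0, hx0⟩ := (mem_dom S).1 (Nat.find_spec hex)
  obtain ⟨i1, hi1, hx1, hd1⟩ := lift_level S (le_max_left (Nat.find hex) n) hi0 hx0
  obtain ⟨i2, hi2, hx2, hd2⟩ := lift_level S (le_max_right (Nat.find hex) n) hi hx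
  rw [stepAt_of_mem S hi0 hx0, ← hd1, ← hd2, level_unique S (by omega) (by omega) hx1 hx2]

lemma measurable_step : Measurable (step S) := by
  classical
  refine measurable_of_tendsto_metrizable (f := stepAt S) (fun n => ?_) (tendsto_pi_nhds.2 fun x => ?_)
  · exact measurable_id.add (Finset.measurable_sum _ fun i _ =>
      measurable_const.indicator (measurable_level S n i))
  · by_cases hex : ∃ n, x ∈ dom S n
    · obtain ⟨n, hn⟩ := hex
      refine tendsto_atTop_of_eventually_const (i₀ := n) fun N hN => ?_
      obtain ⟨i, hi, hx⟩ := (mem_dom S).1 (dom_mono S hN hn)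
      rw [stepAt_of_mem S hi hx, step_of_mem S hi hx]
    · refine tendsto_atTop_of_eventually_const (i₀ := 0) fun N _ => ?_
      rw [step, dif_neg hex, stepAt, Finset.sum_eq_zero fun i hi => ?_, add_zero]
      rw [Finset.mem_range] at hi
      exact indicator_of_notMem (fun h => hex ⟨N, (mem_dom S).2 ⟨i, by omega, h⟩⟩) _

lemma step_bijOn : BijOn (step S) (Dom S) (Ran S) := by
  refine ⟨fun x hx => ?_, fun x hx y hy he => ?_, fun y hy => ?_⟩
  · obtain ⟨n, hn⟩ := mem_iUnion.1 hx
    obtain ⟨i, hi, h⟩ := (mem_dom S).1 hn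
    refine mem_iUnion.2 ⟨n, (mem_ran S).2 ⟨i, hi, ?_⟩⟩
    rw [step_of_mem S hi h]
    exact (mem_succ_iff S).2 h
  · obtain ⟨n, hn⟩ := mem_iUnion.1 hx
    obtain ⟨n', hn'⟩ := mem_iUnion.1 hy
    obtain ⟨i, hi, h⟩ := (mem_dom S).1 (dom_mono S (le_max_left n n') hn)
    obtain ⟨i', hi', h'⟩ := (mem_dom S).1 (dom_mono S (le_max_right n n') hn')
    rw [step_of_mem S hi h, step_of_mem S hi' h'] at he
    have := level_unique S hi hi' ((mem_succ_iff S).2 h) (he ▸ (mem_succ_iff S).2 h')
    obtain rfl : i = i' := by omega
    linarith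
  · obtain ⟨n, hn⟩ := mem_iUnion.1 hy
    obtain ⟨i, hi, h⟩ := (mem_ran S).1 hn
    have hx := (mem_succ_iff S (x := y - shift S n i)).1 (by rwa [sub_add_cancel])
    exact ⟨y - shift S n i, mem_iUnion.2 ⟨n, (mem_dom S).2 ⟨i, hi, hx⟩⟩,
      by rw [step_of_mem S hi hx, sub_add_cancel]⟩

/-- A measurable bijection of standard Borel spaces is an isomorphism. -/
lemma exists_equiv {α β : Type} [MeasurableSpace α] [MeasurableSpace β] [StandardBorelSpace α]
    [StandardBorelSpace β] (g : α → β) (hg : Measurable g) (hb : Function.Bijective g) :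
    ∃ e : α ≃ᵐ β, ∀ x, e x = g x := by
  have hemb := hg.measurableEmbedding hb.injective
  refine ⟨{ toEquiv := Equiv.ofBijective g hb, measurable_toFun := hg,
            measurable_invFun := fun s hs => ?_ }, fun x => rfl⟩
  rw [← Equiv.image_eq_preimage_symm]
  exact hemb.measurableSet_image' hs

/-! ### The space -/

/-- The total mass of tower `n` before normalisation. -/
def total (n : ℕ) : ℝ := S.height n * width S n

lemma total_succ (n : ℕ) : total S (n + 1) = total S n * (1 + S.A n / S.height n) := by
  have h := (height_pos S n).ne'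
  have e := width_succ_mul S n
  rw [total, total, height_succ, ← e]
  unfold span
  push_cast
  field_simp

lemma total_mono : Monotone (total S) := monotone_nat_of_le_succ fun n => by
  rw [total_succ]
  exact le_mul_of_one_le_right (mul_nonneg (Nat.cast_nonneg _) (width_pos S n).le)
    (le_add_of_nonneg_right (by positivity))

/-- The length of the interval carrying the system. -/
def size : ℝ := ⨆ n, total S n

lemma total_bdd (hS : S.FiniteSpace) : BddAbove (range (total S)) := by
  refine ⟨Real.exp (∑' n, (S.A n : ℝ) / S.height n), ?_⟩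
  rintro _ ⟨n, rfl⟩
  have h : ∀ n, total S n ≤ Real.exp (∑ k ∈ Finset.range n, (S.A k : ℝ) / S.height k) := by
    intro n
    induction n with
    | zero => simp [total, width, Stack.height]
    | succ n ih =>
      rw [total_succ, Finset.sum_range_succ, Real.exp_add]
      refine mul_le_mul ih ?_ (by positivity) (Real.exp_pos _).le
      linarith [Real.add_one_le_exp ((S.A n : ℝ) / S.height n)]
  exact (h n).trans (Real.exp_le_exp.2 (hS.sum_le_tsum _ fun k _ => by positivity))

lemma size_pos (hS : S.FiniteSpace) : 0 < size S :=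
  lt_of_lt_of_le (by simp [total, width, Stack.height]) (le_ciSup (total_bdd S hS) 0)

/-- The normalised Lebesgue measure of `[0, size)`. -/
def mu : Measure ℝ := ENNReal.ofReal (size S)⁻¹ • volume.restrict (Ico 0 (size S))

lemma mu_apply {s : Set ℝ} (hs : s ⊆ Ico 0 (size S)) :
    mu S s = ENNReal.ofReal (size S)⁻¹ * volume s := by
  rw [mu, Measure.smul_apply, Measure.restrict_eq_self _ hs, smul_eq_mul]

lemma level_subset (hS : S.FiniteSpace) {n i : ℕ} (hi : i < S.height n) :
    level S n i ⊆ Ico 0 (size S) := by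
  intro x hx
  have h1 : ((idx S n i : ℝ) + 1) ≤ S.height n := by exact_mod_cast (idx_spec S n).1 i hi
  have h2 : ((idx S n i : ℝ) + 1) * width S n ≤ total S n :=
    mul_le_mul_of_nonneg_right h1 (width_pos S n).le
  exact ⟨(mul_nonneg (Nat.cast_nonneg _) (width_pos S n).le).trans hx.1,
    hx.2.trans_le (h2.trans (le_ciSup (total_bdd S hS) n))⟩

lemma mu_level (hS : S.FiniteSpace) {n i : ℕ} (hi : i < S.height n) :
    mu S (level S n i) = ENNReal.ofReal (width S n / size S) := by
  rw [mu_apply S (level_subset S hS hi), level, cell, Real.volume_Ico,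
    ← ENNReal.ofReal_mul (inv_nonneg.2 (size_pos S hS).le)]
  congr 1
  ring

lemma isProbability_mu (hS : S.FiniteSpace) : IsProbabilityMeasure (mu S) := by
  constructor
  have h := size_pos S hS
  rw [mu, Measure.smul_apply, Measure.restrict_apply_univ, Real.volume_Ico, smul_eq_mul,
    ← ENNReal.ofReal_mul (inv_nonneg.2 h.le), sub_zero, inv_mul_cancel₀ h.ne', ENNReal.ofReal_one]

lemma tendsto_total (hS : S.FiniteSpace) : Tendsto (total S) atTop (𝓝 (size S)) :=
  tendsto_atTop_ciSup (total_mono S) (total_bdd S hS)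

lemma mu_levels (hS : S.FiniteSpace) (n k : ℕ) (hk : ∀ i < S.height n - 1, i + k < S.height n) :
    mu S (⋃ i ∈ Finset.range (S.height n - 1), level S n (i + k)) =
      ENNReal.ofReal ((total S n - width S n) / size S) := by
  rw [measure_biUnion_finset ?_ fun i _ => measurable_level S n _]
  · rw [Finset.sum_congr rfl fun i hi => mu_level S hS (hk i (Finset.mem_range.1 hi)),
      Finset.sum_const, Finset.card_range, nsmul_eq_mul, ← ENNReal.ofReal_natCast,
      ← ENNReal.ofReal_mul (Nat.cast_nonneg _), Nat.cast_sub (height_pos S n)]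
    congr 1
    rw [total]
    push_cast
    ring
  · intro i hi i' hi' hne
    refine disjoint_left.2 fun x h h' => hne ?_
    simp only [Finset.coe_range, Set.mem_Iio] at hi hi'
    have := level_unique S (hk i hi) (hk i' hi') h h'
    omega

lemma mu_compl_of_exhaust (hS : S.FiniteSpace) {A : ℕ → Set ℝ}
    (hA : ∀ n, MeasurableSet (A n))
    (h : ∀ n, mu S (A n) = ENNReal.ofReal ((total S n - width S n) / size S)) :
    mu S (⋃ n, A n)ᶜ = 0 := by
  have := isProbability_mu S hS
  rw [prob_compl_eq_zero_iff (MeasurableSet.iUnion hA)]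
  refine le_antisymm prob_le_one ?_
  have ht : Tendsto (fun n => ENNReal.ofReal ((total S n - width S n) / size S)) atTop (𝓝 1) := by
    rw [← ENNReal.ofReal_one]
    refine ENNReal.tendsto_ofReal ?_
    have := ((tendsto_total S hS).sub (tendsto_width S)).div_const (size S)
    rwa [sub_zero, div_self (size_pos S hS).ne'] at this
  exact le_of_tendsto' ht fun n => h n ▸ measure_mono (subset_iUnion A n)

lemma mu_Dom_compl (hS : S.FiniteSpace) : mu S (Dom S)ᶜ = 0 :=
  mu_compl_of_exhaust S hS (measurable_dom S) fun n =>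
    by simpa [dom] using mu_levels S hS n 0 (fun i hi => by omega)

lemma mu_Ran_compl (hS : S.FiniteSpace) : mu S (Ran S)ᶜ = 0 :=
  mu_compl_of_exhaust S hS (measurable_ran S) fun n =>
    mu_levels S hS n 1 (fun i hi => by omega)

lemma not_countable_compl (A : Set ℝ) (hA : A ⊆ Ici 0) : ¬ Countable (Aᶜ : Set ℝ) := by
  intro h
  have hc : (Iio (0 : ℝ)).Countable :=
    (Set.countable_coe_iff.1 h).mono fun x (hx : x < 0) hx' => (not_le.2 hx) (hA hx')
  have := hc.measure_zero (volume : Measure ℝ)
  simp [Real.volume_Iio] at this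

lemma Dom_subset : Dom S ⊆ Ici 0 := fun x hx => by
  obtain ⟨n, hn⟩ := mem_iUnion.1 hx
  obtain ⟨i, -, h⟩ := (mem_dom S).1 hn
  exact (mul_nonneg (Nat.cast_nonneg _) (width_pos S n).le).trans h.1

lemma Ran_subset : Ran S ⊆ Ici 0 := fun x hx => by
  obtain ⟨n, hn⟩ := mem_iUnion.1 hx
  obtain ⟨i, -, h⟩ := (mem_ran S).1 hn
  exact (mul_nonneg (Nat.cast_nonneg _) (width_pos S n).le).trans h.1

/-- The map: `step` on `Dom`, any Borel bijection outside. -/
lemma exists_map : ∃ T : ℝ ≃ᵐ ℝ, ∀ x ∈ Dom S, T x = step S x := by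
  classical
  have := (measurable_Dom S).standardBorel
  have := (measurable_Ran S).standardBorel
  have := (measurable_Dom S).compl.standardBorel
  have := (measurable_Ran S).compl.standardBorel
  obtain ⟨e₁, he₁⟩ := exists_equiv
    (fun x : Dom S => (⟨step S x, (step_bijOn S).mapsTo x.2⟩ : Ran S))
    (((measurable_step S).comp measurable_subtype_coe).subtype_mk) ((step_bijOn S).bijective)
  let e₂ : ((Dom S)ᶜ : Set ℝ) ≃ᵐ ((Ran S)ᶜ : Set ℝ) := PolishSpace.measurableEquivOfNotCountable
    (not_countable_compl _ (Dom_subset S)) (not_countable_compl _ (Ran_subset S))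
  refine ⟨((MeasurableEquiv.sumCompl (measurable_Dom S)).symm.trans (e₁.sumCongr e₂)).trans
    (MeasurableEquiv.sumCompl (measurable_Ran S)), fun x hx => ?_⟩
  have e : (MeasurableEquiv.sumCompl (measurable_Dom S)).symm x = Sum.inl ⟨x, hx⟩ :=
    (Equiv.symm_apply_eq (MeasurableEquiv.sumCompl (measurable_Dom S)).toEquiv).2 rfl
  simp only [MeasurableEquiv.trans_apply, e]
  show ((e₁ ⟨x, hx⟩ : Ran S) : ℝ) = step S x
  rw [he₁]

/-- One level moves onto the next one without changing the measure. -/
lemma mu_preimage_level (hS : S.FiniteSpace) {T : ℝ ≃ᵐ ℝ} (hT : ∀ x ∈ Dom S, T x = step S x)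
    {n i : ℕ} (hi : i + 1 < S.height n) (s : Set ℝ) :
    mu S (T ⁻¹' s ∩ level S n i) = mu S (s ∩ level S n (i + 1)) := by
  rw [mu_apply S (inter_subset_right.trans (level_subset S hS (by omega))),
    mu_apply S (inter_subset_right.trans (level_subset S hS hi))]
  have e : T ⁻¹' s ∩ level S n i = (· + shift S n i) ⁻¹' (s ∩ level S n (i + 1)) := by
    ext x
    simp only [mem_inter_iff, mem_preimage, mem_succ_iff]
    refine and_congr_left fun hx => ?_
    rw [hT x (mem_iUnion.2 ⟨n, (mem_dom S).2 ⟨i, hi, hx⟩⟩), step_of_mem S hi hx]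
  rw [e, measure_preimage_add_right]

lemma preserving (hS : S.FiniteSpace) {T : ℝ ≃ᵐ ℝ} (hT : ∀ x ∈ Dom S, T x = step S x) :
    MeasurePreserving T (mu S) (mu S) := by
  refine ⟨T.measurable, Measure.ext fun s hs => ?_⟩
  rw [Measure.map_apply T.measurable hs]
  have hn : ∀ n, mu S (T ⁻¹' s ∩ dom S n) = mu S (s ∩ ran S n) := by
    intro n
    simp only [dom, ran, inter_iUnion₂]
    rw [measure_biUnion_finset ?_ fun i _ => (T.measurable hs).inter (measurable_level S n i),
      measure_biUnion_finset ?_ fun i _ => hs.inter (measurable_level S n (i + 1))]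
    · exact Finset.sum_congr rfl fun i hi =>
        mu_preimage_level S hS hT (by rw [Finset.mem_range] at hi; omega) s
    all_goals
      intro i hi i' hi' hne
      refine disjoint_left.2 fun x h h' => hne ?_
      simp only [Finset.coe_range, Set.mem_Iio] at hi hi'
      have := level_unique S (by omega) (by omega) h.2 h'.2
      omega
  have h1 := tendsto_measure_iUnion_atTop (μ := mu S)
    (fun n N hN => inter_subset_inter_right (T ⁻¹' s) (dom_mono S hN))
  have h2 := tendsto_measure_iUnion_atTop (μ := mu S)
    (fun n N hN => inter_subset_inter_right s (ran_mono S hN))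
  simp only [← inter_iUnion] at h1 h2
  rw [show ((mu S) ∘ fun n => T ⁻¹' s ∩ dom S n) = (mu S) ∘ fun n => s ∩ ran S n from funext hn]
    at h1
  have := tendsto_nhds_unique h1 h2
  rwa [show (⋃ n, dom S n) = Dom S from rfl, show (⋃ n, ran S n) = Ran S from rfl,
    measure_inter_conull (mu_Dom_compl S hS), measure_inter_conull (mu_Ran_compl S hS)] at this

lemma generates (hS : S.FiniteSpace) (g : ℝ → ℂ) (hg : MemLp g 2 (mu S))
    (h0 : ∀ n i, i < S.height n → ∫ x in level S n i, g x ∂mu S = 0) : g =ᵐ[mu S] 0 := by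
  have := isProbability_mu S hS
  have hi : Integrable g (mu S) := hg.integrable one_le_two
  have hsupp : ∀ᵐ x ∂mu S, x ∈ Ico 0 (size S) := by
    rw [ae_iff, mu, Measure.smul_apply, smul_eq_mul, mul_eq_zero]
    right
    rw [show {x | ¬x ∈ Ico 0 (size S)} = (Ico 0 (size S))ᶜ from rfl,
      Measure.restrict_apply measurableSet_Ico.compl, compl_inter_self, measure_empty]
  have hIio : ∀ c : ℝ, ∫ x in Iio c, g x ∂mu S = 0 := by
    intro c
    classical
    let V : ℕ → Finset ℕ := fun n =>
      (Finset.range (S.height n)).filter fun v => ((v : ℝ) + 1) * width S n ≤ c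
    have hcell : ∀ n, ∀ v ∈ V n, ∫ x in cell S n v, g x ∂mu S = 0 := by
      intro n v hv
      obtain ⟨i, hi', rfl⟩ := idx_surj S (Finset.mem_range.1 (Finset.mem_filter.1 hv).1)
      exact h0 n i hi'
    have hmV : ∀ n, MeasurableSet (⋃ v ∈ V n, cell S n v) := fun n =>
      Finset.measurableSet_biUnion _ fun v _ => measurableSet_Ico
    have hsum : ∀ n, ∫ x, (⋃ v ∈ V n, cell S n v).indicator g x ∂mu S = 0 := by
      intro n
      rw [integral_indicator (hmV n)]
      exact (integral_biUnion_finset (s := cell S n) (V n) (fun v _ => measurableSet_Ico)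
          (fun v _ v' _ hne => disjoint_left.2 fun x h h' => hne (cell_unique S h h'))
          (fun v _ => hi.integrableOn)).trans (Finset.sum_eq_zero (hcell n))
    have hlim : Tendsto (fun n => ∫ x, (⋃ v ∈ V n, cell S n v).indicator g x ∂mu S) atTop
        (𝓝 (∫ x, (Iio c).indicator g x ∂mu S)) := by
      refine tendsto_integral_of_dominated_convergence (fun x => ‖g x‖)
        (fun n => hi.1.indicator (hmV n))
        hi.norm (fun n => Eventually.of_forall fun x => norm_indicator_le_norm_self _ _) ?_
      filter_upwards [hsupp] with x hx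
      refine tendsto_const_nhds.congr' ?_
      by_cases hc : x < c
      · obtain ⟨N, hN⟩ := exists_lt_of_lt_ciSup hx.2
        filter_upwards [eventually_ge_atTop N,
          (tendsto_width S).eventually_lt_const (sub_pos.2 hc)] with n hn hw
        have hq : 0 ≤ x / width S n := div_nonneg hx.1 (width_pos S n).le
        have hfl := Nat.floor_le hq
        have hfl' := Nat.lt_floor_add_one (x / width S n)
        rw [le_div_iff₀ (width_pos S n)] at hfl
        rw [div_lt_iff₀ (width_pos S n)] at hfl'
        have hlt : ⌊x / width S n⌋₊ < S.height n := by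
          rw [Nat.floor_lt hq, div_lt_iff₀ (width_pos S n)]
          exact hN.trans_le (total_mono S hn)
        rw [indicator_of_mem (show x ∈ Iio c from hc), indicator_of_mem]
        simp only [mem_iUnion, exists_prop]
        exact ⟨⌊x / width S n⌋₊, Finset.mem_filter.2 ⟨Finset.mem_range.2 hlt, by linarith⟩,
          hfl, hfl'⟩
      · refine Eventually.of_forall fun n => ?_
        show (Iio c).indicator g x = (⋃ v ∈ V n, cell S n v).indicator g x
        rw [indicator_of_notMem (show x ∉ Iio c from hc), indicator_of_notMem]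
        simp only [mem_iUnion, exists_prop, not_exists, not_and]
        exact fun v hv hxv => hc (lt_of_lt_of_le hxv.2 (Finset.mem_filter.1 hv).2)
    simp only [hsum] at hlim
    rw [← integral_indicator measurableSet_Iio]
    exact (tendsto_nhds_unique tendsto_const_nhds hlim).symm
  have huniv : ∫ x, g x ∂mu S = 0 := by
    rw [← hIio (size S), ← integral_indicator measurableSet_Iio]
    exact integral_congr_ae (hsupp.mono fun x hx => (indicator_of_mem (show x ∈ Iio _ from hx.2) g).symm)
  suffices h : ∀ s, MeasurableSet s → ∫ x in s, g x ∂mu S = 0 from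
    hi.ae_eq_zero_of_forall_setIntegral_eq_zero fun s hs _ => h s hs
  intro s hs
  induction s, hs using MeasurableSpace.induction_on_inter
    (h_eq := BorelSpace.measurable_eq.trans (borel_eq_generateFrom_Iio ℝ))
    (h_inter := isPiSystem_Iio) with
  | empty => simp
  | basic t ht =>
    obtain ⟨c, rfl⟩ := ht
    exact hIio c
  | compl t ht h => rw [setIntegral_compl ht hi, huniv, h, sub_zero]
  | iUnion f hd hm h => rw [integral_iUnion hm hd hi.integrableOn]; simp [h]

/-- **Module Model.** Cutting and stacking realises every stacking data of finite measure. -/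
theorem model : ModelStatement := by
  intro S hS
  obtain ⟨T, hT⟩ := exists_map S
  have hpres := preserving S hS hT
  have := isProbability_mu S hS
  exact ⟨{
    X := ℝ
    measurableSpace := inferInstance
    standard := inferInstance
    μ := mu S
    prob := this
    noAtoms := ⟨fun x => by simp [mu]⟩
    T := T
    preserving := hpres
    level := level S
    measurable_level := measurable_level S
    level_succ := fun n i hi => by
      refine (ae_eq_of_subset_of_measure_ge (fun x hx => ?_) ?_
        (measurable_level S n i).nullMeasurableSet (measure_ne_top _ _)).symm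
      · rw [mem_preimage, hT x (mem_iUnion.2 ⟨n, (mem_dom S).2 ⟨i, hi, hx⟩⟩), step_of_mem S hi hx]
        exact (mem_succ_iff S).2 hx
      · rw [hpres.measure_preimage (measurable_level S n (i + 1)).nullMeasurableSet,
          mu_level S hS hi, mu_level S hS (by omega)]
    disjoint := fun n i i' hi hi' hne => by
      rw [show level S n i ∩ level S n i' = ∅ from
        eq_empty_of_forall_notMem fun x hx => hne (level_unique S hi hi' hx.1 hx.2), measure_empty]
    refine' := fun n i hi => EventuallyEq.of_eq (level_refine S hi)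
    exhausts := by
      have := (tendsto_total S hS).div_const (size S)
      rw [div_self (size_pos S hS).ne'] at this
      refine this.congr fun n => ?_
      rw [mu_level S hS (height_pos S n),
        ENNReal.toReal_ofReal (div_nonneg (width_pos S n).le (size_pos S hS).le), total,
        mul_div_assoc]
    generates := generates S hS }⟩

end Vale.Agent.P130.Full.Model

namespace Vale.Agent.P130.Full

/-- Module Model. -/
theorem model : ModelStatement := Model.model

end Vale.Agent.P130.Full
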