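import Vale.Agent.P130.Full.Spectral.Generator
import Vale.Agent.P130.Full.Spectral.Koopman

/-!
P130, module Spectral: flat stacking data gives simple Lebesgue spectrum, given the densities.
-/

noncomputable section

namespace Vale.Agent.P130.Full

open MeasureTheory Filter Finset
open Vale.Agent.P130.Morse (act act_single)
open Spectral (step koopman koopman_coe koopman_zpow_coe measurePreserving_zpow)
open scoped ComplexConjugate InnerProductSpace Topology

section

variable {S : Stack} {X : Type} [MeasurableSpace X] {μ : Measure X} [IsProbabilityMeasure μ]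
  {T : X ≃ᵐ X} (hT : MeasurePreserving T μ μ) {level : ℕ → ℕ → Set X}
  (hmeas : ∀ n i, MeasurableSet (level n i))
  (hsucc : ∀ n i, i + 1 < S.height n → T ⁻¹' level n (i + 1) =ᵐ[μ] level n i)
  (hdisj : ∀ n i i', i < S.height n → i' < S.height n → i ≠ i' →
    μ (level n i ∩ level n i') = 0)
  (href : ∀ n i, i < S.height n →
    level n i =ᵐ[μ] ⋃ j : Fin (S.m n), level (n + 1) (S.pos n j + i))
  (hexh : Tendsto (fun n => (S.height n : ℝ) * (μ (level n 0)).toReal) atTop (𝓝 1))
  (hgen : ∀ g : X → ℂ, MemLp g 2 μ →
    (∀ n i, i < S.height n → ∫ x in level n i, g x ∂μ = 0) → g =ᵐ[μ] 0)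

omit [IsProbabilityMeasure μ] in
include hsucc in
/-- Level `i` is level `0` moved `i` times. -/
theorem level_zpow (n : ℕ) : ∀ i : ℕ, i < S.height n → ∀ _ : MeasurePreserving T μ μ,
    ⇑((T.toEquiv : Equiv.Perm X) ^ (-(i : ℤ))) ⁻¹' level n 0 =ᵐ[μ] level n i := by
  intro i
  induction i with
  | zero =>
    intro _ _
    rw [Nat.cast_zero, neg_zero, zpow_zero]
    exact EventuallyEq.rfl
  | succ i ih =>
    intro hi hT
    have hm := measurePreserving_zpow hT (-((i + 1 : ℕ) : ℤ))
    have hsym : (T.symm ⁻¹' level n i : Set X) =ᵐ[μ] level n (i + 1) := by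
      have := (MeasurePreserving.symm T hT).quasiMeasurePreserving.preimage_ae_eq (hsucc n i hi)
      rw [← Set.preimage_comp, T.self_comp_symm, Set.preimage_id] at this
      exact this.symm
    refine EventuallyEq.trans ?_ ((MeasurePreserving.symm T hT).quasiMeasurePreserving.preimage_ae_eq
      (ih (by omega) hT) |>.trans hsym)
    rw [Nat.cast_succ, neg_add_rev, add_comm, zpow_add, zpow_neg_one]
    exact .of_forall fun x => rfl

omit [IsProbabilityMeasure μ] in
include hdisj href in
theorem measure_split (n : ℕ) (i : ℕ) (hi : i < S.height n) :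
    (level n i).indicator (fun _ => (1 : ℂ)) =ᵐ[μ]
      fun x => ∑ j : Fin (S.m n), (level (n + 1) (S.pos n j + i)).indicator (fun _ => 1) x := by
  have hlt : ∀ j : Fin (S.m n), S.pos n j + i < S.height (n + 1) := fun j => by
    have := S.pos_add_le_succ n j
    omega
  have hnull : ∀ᵐ x ∂μ, ∀ j j' : Fin (S.m n), j ≠ j' →
      x ∈ level (n + 1) (S.pos n j + i) → x ∉ level (n + 1) (S.pos n j' + i) := by
    refine ae_all_iff.2 fun j => ae_all_iff.2 fun j' => ?_
    by_cases hjj : j = j'
    · exact .of_forall fun x h => absurd hjj h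
    have hne : S.pos n j + i ≠ S.pos n j' + i := fun h =>
      hjj (S.pos_add_inj n hi hi h).1
    have h0 := hdisj (n + 1) _ _ (hlt j) (hlt j') hne
    filter_upwards [measure_eq_zero_iff_ae_notMem.1 h0] with x hx _ h1 h2
    exact hx ⟨h1, h2⟩
  filter_upwards [hnull, (href n i hi).mem_iff] with x hx hmem
  by_cases h : x ∈ level n i
  · obtain ⟨j, hj⟩ := Set.mem_iUnion.1 (hmem.1 h)
    rw [Set.indicator_of_mem h, sum_eq_single j, Set.indicator_of_mem hj]
    · intro b _ hb
      exact Set.indicator_of_notMem (hx j b (Ne.symm hb) hj) _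
    · exact fun h => absurd (mem_univ j) h
  · rw [Set.indicator_of_notMem h, sum_eq_zero]
    intro b _
    exact Set.indicator_of_notMem (fun hb => h (hmem.2 (Set.mem_iUnion.2 ⟨b, hb⟩))) _

/-- The indicator of a base. -/
def baseVec (n : ℕ) : Lp ℂ 2 μ :=
  indicatorConstLp 2 (hmeas n 0) (measure_ne_top μ _) (1 : ℂ)

include hsucc in
theorem zpow_baseVec (n i : ℕ) (hi : i < S.height n) :
    ((koopman hT ^ (-(i : ℤ))) (baseVec hmeas n) : X → ℂ) =ᵐ[μ]
      (level n i).indicator fun _ => 1 := by
  refine (koopman_zpow_coe hT _ _).trans (((measurePreserving_zpow hT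
    _).quasiMeasurePreserving.ae_eq_comp indicatorConstLp_coeFn).trans ?_)
  filter_upwards [(level_zpow hsucc n i hi hT).mem_iff] with x hx
  rw [Set.mem_preimage] at hx
  simp only [Function.comp_apply]
  by_cases h : x ∈ level n i
  · rw [Set.indicator_of_mem (hx.2 h), Set.indicator_of_mem h]
  · rw [Set.indicator_of_notMem (fun h' => h (hx.1 h')), Set.indicator_of_notMem h]

include hmeas hsucc hdisj href in
theorem baseVec_eq (n : ℕ) : baseVec hmeas n =
    ∑ j : Fin (S.m n), (koopman hT ^ (-(S.pos n j : ℤ))) (baseVec hmeas (n + 1)) := by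
  refine Lp.ext (indicatorConstLp_coeFn.trans ((measure_split hdisj href n 0
    (S.height_pos n)).trans (EventuallyEq.trans ?_ (Lp.coeFn_fun_finsetSum _ _).symm)))
  have hlt : ∀ j : Fin (S.m n), S.pos n j < S.height (n + 1) := fun j => by
    have := S.pos_add_le_succ n j
    have := S.height_pos n
    omega
  filter_upwards [ae_all_iff.2 fun j => zpow_baseVec hT hmeas hsucc (n + 1) _ (hlt j)] with x hx
  exact sum_congr rfl fun j _ => by rw [add_zero, hx j]

theorem inner_baseVec_baseVec (n : ℕ) :
    ⟪baseVec (μ := μ) hmeas n, baseVec hmeas n⟫_ℂ = ((μ (level n 0)).toReal : ℂ) := by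
  rw [baseVec, L2.inner_indicatorConstLp_indicatorConstLp, Set.inter_self]
  simp [measureReal_def]

include hsucc hdisj in
theorem inner_baseVec_zpow (n i : ℕ) (hi : i < S.height n) (h0 : i ≠ 0) :
    ⟪(koopman hT ^ (-(i : ℤ))) (baseVec hmeas n), baseVec hmeas n⟫_ℂ = 0 := by
  rw [L2.inner_def]
  refine integral_eq_zero_of_ae ?_
  filter_upwards [zpow_baseVec hT hmeas hsucc n i hi,
    indicatorConstLp_coeFn (p := 2) (hs := hmeas n 0) (hμs := measure_ne_top μ _) (c := (1 : ℂ)),
    measure_eq_zero_iff_ae_notMem.1 (hdisj n i 0 hi (S.height_pos n) h0)] with x h1 h2 h3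
  rw [h1, baseVec, h2, Pi.zero_apply]
  by_cases h : x ∈ level n i
  · rw [Set.indicator_of_notMem (s := level n 0) (fun h' => h3 ⟨h, h'⟩), inner_zero_right]
  · rw [Set.indicator_of_notMem h, inner_zero_left]

include hT hmeas hsucc href hexh in
theorem base_pos (n : ℕ) : 0 < (μ (level n 0)).toReal := by
  have hstep : ∀ k, (μ (level k 0)).toReal = 0 → (μ (level (k + 1) 0)).toReal = 0 := by
    intro k hk
    have hne : NeZero (S.m k) := ⟨by have := S.two_le k; omega⟩
    set j : Fin (S.m k) := 0
    have hlt : S.pos k j + 0 < S.height (k + 1) := by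
      have := S.pos_add_le_succ k j
      have := S.height_pos k
      omega
    have hk0 : μ (level k 0) = 0 := by
      simpa [ENNReal.toReal_eq_zero_iff, measure_ne_top] using hk
    have h0 : μ (⋃ j : Fin (S.m k), level (k + 1) (S.pos k j + 0)) = 0 := by
      rw [← measure_congr (href k 0 (S.height_pos k))]; exact hk0
    have hl : μ (level (k + 1) (S.pos k j + 0)) = 0 := measure_iUnion_null_iff.1 h0 j
    rw [← measure_congr (level_zpow hsucc (k + 1) _ hlt hT),
      (measurePreserving_zpow hT _).measure_preimage (hmeas (k + 1) 0).nullMeasurableSet] at hl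
    rw [hl, ENNReal.toReal_zero]
  refine lt_of_le_of_ne ENNReal.toReal_nonneg fun h => ?_
  have hall : ∀ k, n ≤ k → (μ (level k 0)).toReal = 0 := fun k hk => by
    induction k, hk using Nat.le_induction with
    | base => exact h.symm
    | succ k _ ih => exact hstep k ih
  have h1 := tendsto_nhds_unique hexh (tendsto_const_nhds.congr' (f₁ := fun _ => (0 : ℝ)) (by
    filter_upwards [eventually_ge_atTop n] with k hk
    rw [hall k hk, mul_zero]))
  exact one_ne_zero h1

include hmeas hsucc hdisj href hexh hgen in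
/-- The bases of a rank-one system, in the abstract form. -/
theorem exists_base : ∃ V : Spectral.Base S (koopman hT),
    V.one = indicatorConstLp 2 MeasurableSet.univ (measure_ne_top μ _) (1 : ℂ) := by
  set b : ℕ → ℝ := fun n => (μ (level n 0)).toReal with hb
  have hbpos : ∀ n, 0 < b n := base_pos hT hmeas hsucc href hexh
  have hsne : ∀ n, (Real.sqrt (b n) : ℂ) ≠ 0 := fun n => by
    exact_mod_cast (Real.sqrt_pos.2 (hbpos n)).ne'
  have hss : ∀ n, (Real.sqrt (b n) : ℂ) * (Real.sqrt (b n) : ℂ) = (b n : ℂ) := fun n => by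
    rw [← Complex.ofReal_mul, Real.mul_self_sqrt (hbpos n).le]
  set one : Lp ℂ 2 μ := indicatorConstLp 2 MeasurableSet.univ (measure_ne_top μ _) (1 : ℂ) with hone
  set v : ℕ → Lp ℂ 2 μ := fun n => ((Real.sqrt (b n) : ℂ))⁻¹ • baseVec hmeas n with hv
  have horth : ∀ n, ∀ r : ℤ, r ≠ 0 → |r| < (S.height n : ℤ) →
      ⟪v n, (koopman hT ^ r) (v n)⟫_ℂ = 0 := by
    intro n r hr hlt
    simp only [hv, map_smul, inner_smul_left, inner_smul_right]
    rw [abs_lt] at hlt
    obtain ⟨i, rfl | rfl⟩ := Int.eq_nat_or_neg r
    · rw [← LinearIsometryEquiv.inner_map_map (koopman hT ^ (-(i : ℤ))) (baseVec hmeas n),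
        Morse.zpow_zpow_apply, neg_add_cancel, zpow_zero]
      show _ * (_ * ⟪_, baseVec hmeas n⟫_ℂ) = 0
      rw [inner_baseVec_zpow hT hmeas hsucc hdisj n i (by omega) (by omega), mul_zero, mul_zero]
    · rw [← inner_conj_symm, inner_baseVec_zpow hT hmeas hsucc hdisj n i (by omega) (by omega),
        map_zero, mul_zero, mul_zero]
  refine ⟨{ one := one, U_one := ?_, inner_one := ?_, v := v, inner_v := ?_, b := b,
            b_pos := hbpos, inner_one_v := ?_, orth := horth, v_eq := ?_, tend := hexh,
            total := ?_ }, rfl⟩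
  · refine Lp.ext ((koopman_coe hT one).trans ((Spectral.ae_comp hT indicatorConstLp_coeFn).trans
      (EventuallyEq.trans ?_ indicatorConstLp_coeFn.symm)))
    exact .of_forall fun x => by simp
  · rw [hone, L2.inner_indicatorConstLp_indicatorConstLp, Set.inter_self]
    simp
  · intro n
    simp only [hv, inner_smul_left, inner_smul_right, inner_baseVec_baseVec hmeas, map_inv₀,
      Complex.conj_ofReal]
    rw [← mul_assoc, ← mul_inv, hss, inv_mul_cancel₀ (by exact_mod_cast (hbpos n).ne')]
  · intro n
    simp only [hv, inner_smul_right, hone, baseVec]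
    rw [L2.inner_indicatorConstLp_indicatorConstLp, Set.univ_inter]
    simp only [measureReal_def]
    rw [show ⟪(1 : ℂ), (1 : ℂ)⟫_ℂ = 1 by simp, Complex.real_smul, mul_one]
    exact (mul_left_inj' (hsne n)).1 (by rw [mul_assoc, mul_comm _ (Real.sqrt (b n) : ℂ),
      ← mul_assoc, inv_mul_cancel₀ (hsne n), one_mul, hss])
  · intro n
    have hm : (b n : ℝ) = S.m n * b (n + 1) := by
      have h : ((b n : ℝ) : ℂ) = ((S.m n * b (n + 1) : ℝ) : ℂ) := by
        rw [← inner_baseVec_baseVec hmeas n]
        conv_lhs => rw [baseVec_eq hT hmeas hsucc hdisj href n]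
        have hj : ∀ j : Fin (S.m n),
            ⟪(koopman hT ^ (-(S.pos n j : ℤ))) (baseVec hmeas (n + 1)),
              ∑ l, (koopman hT ^ (-(S.pos n l : ℤ))) (baseVec hmeas (n + 1))⟫_ℂ =
              (b (n + 1) : ℂ) := by
          intro j
          rw [inner_sum, sum_eq_single j]
          · rw [LinearIsometryEquiv.inner_map_map, inner_baseVec_baseVec hmeas]
          · intro l _ hlj
            have hr : -(S.pos n l : ℤ) - -(S.pos n j : ℤ) ≠ 0 := by
              intro h0
              exact hlj (S.pos_add_inj n (S.height_pos n) (S.height_pos n) (by omega)).1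
            have hlt : |-(S.pos n l : ℤ) - -(S.pos n j : ℤ)| < (S.height (n + 1) : ℤ) := by
              have := S.pos_add_le_succ n l
              have := S.pos_add_le_succ n j
              have := S.height_pos n
              rw [abs_lt]; omega
            have h0 := horth (n + 1) _ hr hlt
            simp only [hv, map_smul, inner_smul_left, inner_smul_right, mul_eq_zero,
              map_eq_zero, inv_eq_zero, hsne, false_or] at h0
            rw [Morse.inner_zpow_zpow, h0]
          · exact fun h => absurd (mem_univ j) h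
        rw [sum_inner, sum_congr rfl fun j _ => hj j]
        simp
      exact_mod_cast h
    simp only [hv, step, map_sum, _root_.sum_apply, act_single, map_smul, ← Finset.smul_sum]
    rw [← baseVec_eq hT hmeas hsucc hdisj href n, smul_smul]
    congr 1
    rw [hm, Real.sqrt_mul (Nat.cast_nonneg _), one_div]
    push_cast
    rw [mul_inv, mul_comm]
  · intro g hg
    have hg0 : ∀ n i, i < S.height n → ∫ x in level n i, g x ∂μ = 0 := by
      intro n i hi
      have h := hg n i hi
      simp only [hv, map_smul, inner_smul_right, mul_eq_zero, inv_eq_zero, hsne, false_or] at h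
      rw [← inner_conj_symm, map_eq_zero, L2.inner_def] at h
      rw [← h, ← integral_indicator (hmeas n i)]
      refine integral_congr_ae ?_
      filter_upwards [zpow_baseVec hT hmeas hsucc n i hi] with x hx
      rw [hx]
      by_cases hxm : x ∈ level n i <;> simp [hxm]
    exact (Lp.eq_zero_iff_ae_eq_zero).2 (hgen g (Lp.memLp g) hg0)

end

/-- Module Spectral: flat stacking data gives simple Lebesgue spectrum. -/
theorem spectral (hD : DensityStatement) : SpectralStatement := by
  intro S hS hR
  obtain ⟨R⟩ := hR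
  obtain ⟨D⟩ := Spectral.exists_densities hD S hS
  let := R.measurableSpace
  have := R.prob
  have := R.noAtoms
  obtain ⟨V, hone⟩ := exists_base R.preserving R.measurable_level R.level_succ R.disjoint R.refine'
    R.exhausts R.generates
  obtain ⟨f, hf, hf0, htot⟩ := Spectral.exists_generator D V
  have hint : ∀ v : Lp ℂ 2 R.μ, (∫ x, v x ∂(R.μ)) = ⟪V.one, v⟫_ℂ := fun v => by
    rw [hone, L2.inner_indicatorConstLp_one, setIntegral_univ]
  refine ⟨R.X, R.measurableSpace, R.standard, R.μ, R.prob, fun x => measure_singleton x, R.T, f,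
    R.preserving, Lp.memLp f, ?_, fun n => ?_, fun g hg hg0 hgf => ?_⟩
  · rw [hint, hf0]
  · have h : ⟪f, (koopman R.preserving ^ n) f⟫_ℂ = if n = 0 then 1 else 0 := by
      have h := orthonormal_iff_ite.1 hf 0 n
      simpa [eq_comm] using h
    rw [← h, L2.inner_def]
    refine integral_congr_ae ?_
    filter_upwards [koopman_zpow_coe R.preserving f n] with x hx
    rw [hx, RCLike.inner_apply]
    rfl
  · have hG : hg.toLp g = 0 := by
      refine htot _ ?_ fun q => ?_
      · rw [← hint, integral_congr_ae hg.coeFn_toLp, hg0]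
      · rw [← hgf q, L2.inner_def]
        refine integral_congr_ae ?_
        filter_upwards [koopman_zpow_coe R.preserving f q, hg.coeFn_toLp] with x h1 h2
        rw [h1, h2, RCLike.inner_apply]
        rfl
    exact hg.coeFn_toLp.symm.trans ((Lp.eq_zero_iff_ae_eq_zero).1 hG)

end Vale.Agent.P130.Full
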