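import Vale.Agent.P130.Full.Statements
import Vale.Agent.P130.Full.Model
import Vale.Agent.P130.Full.Density
import Vale.Agent.P130.Full.Spectral
import Vale.Agent.P130.Full.Riesz.Main
import Vale.Agent.P130.Full.Core.Main
import Vale.Agent.P130.Full.Core.Colouring
import Vale.Agent.P130.Full.Core.Torus
import Vale.Agent.P130.Full.Core.Profile
import Vale.Agent.P130.Full.Core.Owner
import Vale.Agent.P130.Full.Core.Comb
import Vale.Agent.P130.Full.Core.Chirp
import Vale.Agent.P130.Full.Core.Line
import Vale.Agent.P130.Full.Core.Sequence

/-!
The composition: a rank-one transformation with simple Lebesgue spectrum.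
-/

namespace Vale.Agent.P130.Full

/-- Flat families of column polynomials with bounded offsets exist. -/
theorem flatFamily : FlatFamilyStatement :=
  Core.flatFamily_of (Core.torus (Core.profile Core.chirp) Core.colouring)
    (Core.carrier (Core.comb Core.owner) (Core.line_flat Core.chirp))

/-- Some probability-preserving transformation has simple Lebesgue spectrum. -/
theorem simpleLebesgue : SimpleLebesgueStatement :=
  simpleLebesgue_of flatFamily riesz model (spectral density)

end Vale.Agent.P130.Full
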